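/-
Row 121 (S0161, Kadison-Ringrose): common definitions (frozen).
-/
import Mathlib
import Crest.Prelude.Def_Hochschild
import Crest.Agent.R121.AvgOp

set_option autoImplicit false
set_option linter.unusedSectionVars false

open scoped InnerProductSpace

namespace Crest.Agent.R121

variable {H : Type*} [NormedAddCommGroup H] [InnerProductSpace ℂ H] [CompleteSpace H]

/-- the algebra `M` -/
abbrev Al (M : VonNeumannAlgebra H) := M.toStarSubalgebra

/-- bounded linear maps `M → M` -/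
abbrev En (M : VonNeumannAlgebra H) := Al M →L[ℂ] Al M

/-- central projections of `M` -/
structure IsCP (M : VonNeumannAlgebra H) (z : Al M) : Prop where
  proj : IsStarProjection z
  comm : ∀ x : Al M, z * x = x * z

/-- `‖X‖ ≤ c` for a (rectangular) operator matrix -/
def MB {ι κ : Type} [Fintype ι] [Fintype κ] (X : ι → κ → (H →L[ℂ] H)) (c : ℝ) : Prop :=
  ∀ ξ : κ → H, ∑ i, ‖∑ j, X i j (ξ j)‖ ^ 2 ≤ c ^ 2 * ∑ j, ‖ξ j‖ ^ 2

/-- `‖T‖_cb ≤ K` -/
def IsCB {M : VonNeumannAlgebra H} (K : ℝ) (T : En M) : Prop :=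
  0 ≤ K ∧ ∀ (n : ℕ) (X : Fin n → Fin n → Al M),
    MB (fun i j => (X i j : H →L[ℂ] H)) 1 → MB (fun i j => (T (X i j) : H →L[ℂ] H)) K

/-- a class of bounded maps `M → M` with a norm -/
structure Scale (M : VonNeumannAlgebra H) where
  mem : ℝ → En M → Prop
  nonneg : ∀ {K T}, mem K T → 0 ≤ K
  mono : ∀ {K K' T}, mem K T → K ≤ K' → mem K' T
  zero : mem 0 0
  add : ∀ {K K' T T'}, mem K T → mem K' T' → mem (K + K') (T + T')
  smul : ∀ (c : ℂ) {K T}, mem K T → mem (‖c‖ * K) (c • T)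
  lmul : ∀ (a : Al M) {K T}, mem K T → mem (‖a‖ * K) (Lm a ∘L T)
  comp : ∀ (a : Al M) {K T}, mem K T → mem (K * ‖a‖) (T ∘L Lm a)
  mul : ∀ d : Al M, mem ‖d‖ (Lm d)

/-- all bounded maps -/
def bdS (M : VonNeumannAlgebra H) : Scale M where
  mem K T := ‖T‖ ≤ K
  nonneg h := (norm_nonneg _).trans h
  mono h h' := h.trans h'
  zero := by rw [norm_zero]
  add h h' := (norm_add_le _ _).trans (add_le_add h h')
  smul c K T h := by rw [norm_smul]; exact mul_le_mul_of_nonneg_left h (norm_nonneg _)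
  lmul a K T h := by
    refine (ContinuousLinearMap.opNorm_comp_le _ _).trans ?_
    exact mul_le_mul (ContinuousLinearMap.opNorm_mul_apply_le ℂ (Al M) a) h (norm_nonneg _)
      (norm_nonneg _)
  comp a K T h := by
    refine (ContinuousLinearMap.opNorm_comp_le _ _).trans ?_
    exact mul_le_mul h (ContinuousLinearMap.opNorm_mul_apply_le ℂ (Al M) a) (norm_nonneg _)
      ((norm_nonneg _).trans h)
  mul d := ContinuousLinearMap.opNorm_mul_apply_le ℂ (Al M) d

/-- the right `M`-modular averaging functional `ρ` on the class `E` of maps, with central support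
`z`: `ρ (a T) = a ρ(T)`, `ρ (T ∘ L_a) = ρ(T) a`, `ρ (x ↦ d x) = d z`. -/
structure IsRho {M : VonNeumannAlgebra H} (E : Scale M) (z : Al M) (C : ℝ) (ρ : En M → Al M) :
    Prop where
  nonneg : 0 ≤ C
  bound : ∀ {K T}, E.mem K T → ‖ρ T‖ ≤ C * K
  add : ∀ {K K' T T'}, E.mem K T → E.mem K' T' → ρ (T + T') = ρ T + ρ T'
  smul : ∀ (c : ℂ) {K T}, E.mem K T → ρ (c • T) = c • ρ T
  lmul : ∀ (a : Al M) {K T}, E.mem K T → ρ (Lm a ∘L T) = a * ρ T
  comp : ∀ (a : Al M) {K T}, E.mem K T → ρ (T ∘L Lm a) = ρ T * a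
  mul : ∀ d : Al M, ρ (Lm d) = d * z

/-- `k`-cochains -/
abbrev Coch (M : VonNeumannAlgebra H) (k : ℕ) :=
  ContinuousMultilinearMap ℂ (fun _ : Fin k => Al M) (Al M)

/-- cocycles -/
def IsCocycle {M : VonNeumannAlgebra H} {k : ℕ} (f : Coch M k) : Prop :=
  ∀ a : Fin (k + 1) → Al M, Crest.OpAlg.hochschildDiff f a = 0

/-- `z` is good in degree `k + 1` with constant `C`: for every `(k+1)`-cocycle `f`,
`f z = d g` with `‖g‖ ≤ C ‖f‖`. -/
def Good (M : VonNeumannAlgebra H) (k : ℕ) (C : ℝ) (z : Al M) : Prop :=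
  ∀ f : Coch M (k + 1), IsCocycle f → ∃ g : Coch M k, ‖g‖ ≤ C * ‖f‖ ∧
    ∀ a : Fin (k + 1) → Al M, Crest.OpAlg.hochschildDiff g a = f a * z

/-- properly infinite central projections -/
def IsPI {M : VonNeumannAlgebra H} (z : Al M) : Prop :=
  ∃ s t : Al M, star s * s = z ∧ star t * t = z ∧ star s * t = 0



/-- `z` is the central support of `e` -/
def IsCS {M : VonNeumannAlgebra H} (e z : Al M) : Prop :=
  IsCP M z ∧ z * e = e ∧ ∀ ξ : H, (z : H →L[ℂ] H) ξ ∈
    closure ((Submodule.span ℂ {w : H | ∃ x : Al M, ∃ η : H,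
      w = (x : H →L[ℂ] H) ((e : H →L[ℂ] H) η)} : Submodule ℂ H) : Set H)

/-- faithful vector `C`-trace on the corner `e M e`: `w x = ⟪ζ, x ζ⟫`,
`w (x x*) ≤ C² w (x* x)` for `x ∈ e M e`. -/
structure IsCTr {M : VonNeumannAlgebra H} (e : Al M) (ζ : H) (C : ℝ) : Prop where
  nonneg : 0 ≤ C
  supp : (e : H →L[ℂ] H) ζ = ζ
  faithful : ∀ x : Al M, x * e = x → (x : H →L[ℂ] H) ζ = 0 → x = 0
  trace : ∀ x : Al M, e * x = x → x * e = x →
    ‖((star x : Al M) : H →L[ℂ] H) ζ‖ ≤ C * ‖(x : H →L[ℂ] H) ζ‖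

/-- corner averages: for `y ∈ M e`, `S T y` is a limit of averages of `T (y u*) u`,
`u ∈ U(e M e)`, which is right `e M e`-modular. -/
structure IsCAvg {M : VonNeumannAlgebra H} (e : Al M) (S : En M → Al M → Al M) : Prop where
  addT : ∀ (T T' : En M) (y : Al M), y * e = y → S (T + T') y = S T y + S T' y
  smulT : ∀ (c : ℂ) (T : En M) (y : Al M), y * e = y → S (c • T) y = c • S T y
  add : ∀ (T : En M) (y y' : Al M), y * e = y → y' * e = y' → S T (y + y') = S T y + S T y'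
  smul : ∀ (T : En M) (c : ℂ) (y : Al M), y * e = y → S T (c • y) = c • S T y
  bound : ∀ (T : En M) (y : Al M), y * e = y → ‖S T y‖ ≤ ‖T‖ * ‖y‖
  mem : ∀ (T : En M) (y : Al M), y * e = y → S T y * e = S T y
  lmul : ∀ (a : Al M) (T : En M) (y : Al M), y * e = y → S (Lm a ∘L T) y = a * S T y
  comp : ∀ (b : Al M) (T : En M) (y : Al M), y * e = y → S (T ∘L Lm b) y = S T (b * y)
  mul : ∀ (d y : Al M), y * e = y → S (Lm d) y = d * y
  right : ∀ (T : En M) (y a : Al M), y * e = y → e * a = a → a * e = a →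
    S T (y * a) = S T y * a

end Crest.Agent.R121
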