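import Mathlib
import Crest.Agent.R121.Homotopy
import Crest.Agent.R121.PIAlg_Mg
import Crest.Agent.R121.Defs
import Crest.Agent.R121.WLim

-- ▼ part R121/C2
section

/-!
Row 121, block C2: the homotopy for continuous multilinear cocycles.
-/

set_option autoImplicit false
set_option linter.unusedSectionVars false

universe u

namespace Crest.Agent.R121

open Crest.OpAlg

section alg

variable {A : Type u} [Ring A]

/-- the arguments `(σ y₁, .., σ y_j, t, y_{j+1}, ..)` -/
def hArg (σ : A → A) (t : A) {n : ℕ} (j : Fin (n + 1)) (y : Fin n → A) : Fin (n + 1) → A :=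
  j.insertNth t (fun i : Fin n => if i.castSucc < j then σ (y i) else y i)

theorem hArg_zero (σ : A → A) (t : A) {n : ℕ} (y : Fin n → A) :
    hArg σ t 0 y = Fin.cons t y := by
  unfold hArg
  simp [Fin.insertNth_zero']

theorem hArg_succ (σ : A → A) (t : A) {n : ℕ} (j : Fin (n + 1)) (y : Fin (n + 1) → A) :
    hArg σ t j.succ y = Fin.cons (σ (y 0)) (hArg σ t j (fun i => y i.succ)) := by
  unfold hArg
  symm
  rw [Fin.eq_insertNth_iff]
  refine ⟨by simp, ?_⟩
  funext i
  refine Fin.cases ?_ (fun i => ?_) i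
  · simp [Fin.removeNth]
  · simp only [Fin.removeNth, Fin.succ_succAbove_succ, Fin.cons_succ, Fin.insertNth_apply_succAbove]
    congr 1
    simp only [Fin.castSucc_succ, Fin.succ_lt_succ_iff]

theorem hK_eq (σ : A → A) (t : A) (n : ℕ) : ∀ {S : Type u} (f : S → (Fin (n + 1) → A) → A)
    (s : S) (x : Fin n → A),
    hK σ t n f s x = ∑ j : Fin (n + 1), ((-1 : ℤ) ^ j.val) • f s (hArg σ t j x) := by
  induction n with
  | zero =>
    intro S f s x
    have h : (fun _ : Fin 1 => t) = hArg σ t 0 x := by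
      rw [hArg_zero]
      funext i
      refine Fin.cases ?_ (fun i => i.elim0) i
      simp
    rw [hK, h]
    simp
  | succ n ih =>
    intro S f s x
    rw [hK, ih]
    symm
    rw [Fin.sum_univ_succ, sub_eq_add_neg, ← Finset.sum_neg_distrib]
    simp only [hArg_zero, hArg_succ, Fin.val_zero, pow_zero, one_smul, Fin.val_succ]
    congr 1
    refine Finset.sum_congr rfl fun j _ => ?_
    rw [pow_succ, mul_neg, mul_one, neg_smul]

/-- the homotopy identity in terms of `hochschildDiff` -/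
theorem homotopy_hochschild {n : ℕ} (f : (Fin (n + 1) → A) → A)
    (hf : ∀ a, hochschildDiff f a = 0) (σ : A → A) (s t : A)
    (hσ : ∀ a b, σ (a * b) = σ a * σ b) (hσs : ∀ a, s * σ a = a * s)
    (hσt : ∀ a, σ a * t = t * a) (x : Fin (n + 1) → A) :
    s * t * f x = hochschildDiff
        (fun y => s * ∑ j : Fin (n + 1), ((-1 : ℤ) ^ j.val) • f (hArg σ t j y)) x
      + s * f (fun i => σ (x i)) * t := by
  have H := homotopy σ t hσ hσt n (S := A) (fun s b => s * b) (fun s y => s * f y) s x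
  have h1 : ∀ (s' : A) (y : Fin (n + 2) → A),
      hD (n + 1) (S := A) (fun s b => s * b) (fun s y => s * f y) s' y = 0 := by
    intro s' y
    have h2 := hf y
    rw [hochschildDiff] at h2
    rw [hD_eq]
    have h3 : s' * y 0 * f (fun i => y i.succ) +
        ∑ j : Fin (n + 1), ((-1 : ℤ) ^ (j.val + 1)) • (s' * f (mergeArgs j y)) +
        ((-1 : ℤ) ^ (n + 1 + 1)) • (s' * f (fun i => y i.castSucc) * y (Fin.last (n + 1)))
        = s' * (y 0 * f (fun i => y i.succ) +
          (∑ j : Fin (n + 1), ((-1 : ℤ) ^ (j.val + 1)) • f (mergeArgs j y)) +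
          ((-1 : ℤ) ^ (n + 1 + 1)) • (f (fun i => y i.castSucc) * y (Fin.last (n + 1)))) := by
      simp only [mul_add, Finset.mul_sum, mul_smul_comm, mul_assoc]
    rw [h3, h2, mul_zero]
  have h4 : hK σ t (n + 1) (hD (n + 1) (S := A) (fun s b => s * b) (fun s y => s * f y)) s x
      = 0 := by
    rw [hK_eq]
    refine Finset.sum_eq_zero fun j _ => ?_
    rw [h1, smul_zero]
  rw [h4, add_zero] at H
  have h5 : hD n (S := A) (fun s b => s * σ b) (hK σ t n (fun s y => s * f y)) s x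
      = hochschildDiff
        (fun y => s * ∑ j : Fin (n + 1), ((-1 : ℤ) ^ j.val) • f (hArg σ t j y)) x := by
    rw [hD_eq, hochschildDiff]
    simp only [hK_eq, ← mul_smul_comm, ← Finset.mul_sum, ← mul_assoc, hσs]
  rw [h5] at H
  rw [H]
  noncomm_ring

end alg

section normed

variable {A : Type u} [NormedRing A] [NormedAlgebra ℂ A]

/-- the `j`-th term of the homotopy, as a continuous multilinear map -/
noncomputable def hTerm {n : ℕ} (f : ContinuousMultilinearMap ℂ (fun _ : Fin (n + 1) => A) A)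
    (σ : A →L[ℂ] A) (t : A) (j : Fin (n + 1)) :
    ContinuousMultilinearMap ℂ (fun _ : Fin n => A) A :=
  (f.curryMid j t).compContinuousLinearMap
    (fun i => if i.castSucc < j then σ else ContinuousLinearMap.id ℂ A)

theorem hTerm_apply {n : ℕ} (f : ContinuousMultilinearMap ℂ (fun _ : Fin (n + 1) => A) A)
    (σ : A →L[ℂ] A) (t : A) (j : Fin (n + 1)) (y : Fin n → A) :
    hTerm f σ t j y = f (hArg σ t j y) := by
  unfold hTerm hArg
  rw [ContinuousMultilinearMap.compContinuousLinearMap_apply,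
    ContinuousMultilinearMap.curryMid_apply]
  congr 1
  congr 1
  funext i
  split_ifs <;> simp

theorem norm_hTerm_le {n : ℕ} (f : ContinuousMultilinearMap ℂ (fun _ : Fin (n + 1) => A) A)
    (σ : A →L[ℂ] A) (hσ : ∀ a, ‖σ a‖ ≤ ‖a‖) (t : A) (j : Fin (n + 1)) :
    ‖hTerm f σ t j‖ ≤ ‖f‖ * ‖t‖ := by
  refine ContinuousMultilinearMap.opNorm_le_bound (by positivity) fun y => ?_
  unfold hTerm
  rw [ContinuousMultilinearMap.compContinuousLinearMap_apply]
  refine (ContinuousMultilinearMap.le_opNorm _ _).trans ?_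
  have h1 : ‖f.curryMid j t‖ ≤ ‖f‖ * ‖t‖ := by
    have := (f.curryMid j).le_opNorm t
    rwa [ContinuousMultilinearMap.norm_curryMid] at this
  have h2 : ∏ i : Fin n, ‖(if i.castSucc < j then σ else ContinuousLinearMap.id ℂ A) (y i)‖
      ≤ ∏ i : Fin n, ‖y i‖ := by
    refine Finset.prod_le_prod (fun i _ => norm_nonneg _) fun i _ => ?_
    split_ifs
    · exact hσ _
    · simp
  gcongr

/-- **Block C2.** -/
theorem exists_homotopy {n : ℕ} (f : ContinuousMultilinearMap ℂ (fun _ : Fin (n + 1) => A) A)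
    (hf : ∀ a, hochschildDiff f a = 0) (σ : A →L[ℂ] A) (s t : A)
    (hσ : ∀ a b, σ (a * b) = σ a * σ b) (hσ1 : ∀ a, ‖σ a‖ ≤ ‖a‖)
    (hσs : ∀ a, s * σ a = a * s) (hσt : ∀ a, σ a * t = t * a) :
    ∃ k : ContinuousMultilinearMap ℂ (fun _ : Fin n => A) A,
      ‖k‖ ≤ (n + 1) * ‖f‖ * ‖s‖ * ‖t‖ ∧
      ∀ x : Fin (n + 1) → A,
        s * t * f x = hochschildDiff k x + s * f (fun i => σ (x i)) * t := by
  refine ⟨(ContinuousLinearMap.mul ℂ A s).compContinuousMultilinearMap
    (∑ j : Fin (n + 1), ((-1 : ℂ) ^ j.val) • hTerm f σ t j), ?_, fun x => ?_⟩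
  · refine (ContinuousLinearMap.norm_compContinuousMultilinearMap_le _ _).trans ?_
    have h1 : ‖ContinuousLinearMap.mul ℂ A s‖ ≤ ‖s‖ := by
      exact ContinuousLinearMap.opNorm_mul_apply_le ℂ A s
    have h2 : ‖∑ j : Fin (n + 1), ((-1 : ℂ) ^ j.val) • hTerm f σ t j‖
        ≤ (n + 1) * (‖f‖ * ‖t‖) := by
      refine (norm_sum_le _ _).trans ?_
      calc ∑ j : Fin (n + 1), ‖((-1 : ℂ) ^ j.val) • hTerm f σ t j‖
          ≤ ∑ _j : Fin (n + 1), ‖f‖ * ‖t‖ := by
            refine Finset.sum_le_sum fun j _ => ?_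
            rw [norm_smul]
            simpa using norm_hTerm_le f σ hσ1 t j
        _ = (n + 1) * (‖f‖ * ‖t‖) := by simp
    calc ‖ContinuousLinearMap.mul ℂ A s‖ * ‖∑ j : Fin (n + 1), ((-1 : ℂ) ^ j.val) • hTerm f σ t j‖
        ≤ ‖s‖ * ((n + 1) * (‖f‖ * ‖t‖)) := by gcongr
      _ = _ := by ring
  · rw [homotopy_hochschild (⇑f) hf σ s t hσ hσs hσt x]
    congr 2
    funext y
    simp only [ContinuousLinearMap.compContinuousMultilinearMap_coe, Function.comp_apply,
      ContinuousLinearMap.mul_apply', sum_apply, smul_apply, hTerm_apply]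
    congr 1
    refine Finset.sum_congr rfl fun j _ => ?_
    rcases Nat.even_or_odd j.val with h | h
    · simp [h.neg_one_pow]
    · simp [h.neg_one_pow]

end normed

end Crest.Agent.R121
end

-- ▼ part R121/PIFix
section

/-!
Row 121, block PI: the reduction for a fixed finite family of isometries.
-/

set_option autoImplicit false
set_option linter.unusedSectionVars false

open scoped InnerProductSpace

namespace Crest.Agent.R121.PI

open Crest.OpAlg

section diff

variable {A : Type*} [Ring A] {k : ℕ}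

theorem dif_add (f g : (Fin k → A) → A) (a : Fin (k + 1) → A) :
    hochschildDiff (fun y => f y + g y) a = hochschildDiff f a + hochschildDiff g a := by
  simp only [hochschildDiff, mul_add, add_mul, smul_add, Finset.sum_add_distrib]
  abel

theorem dif_sub (f g : (Fin k → A) → A) (a : Fin (k + 1) → A) :
    hochschildDiff (fun y => f y - g y) a = hochschildDiff f a - hochschildDiff g a := by
  simp only [hochschildDiff, mul_sub, sub_mul, smul_sub, Finset.sum_sub_distrib]
  abel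

theorem dif_zsmul (c : ℤ) (f : (Fin k → A) → A) (a : Fin (k + 1) → A) :
    hochschildDiff (fun y => c • f y) a = c • hochschildDiff f a := by
  simp only [hochschildDiff, mul_smul_comm, smul_mul_assoc, smul_add, Finset.smul_sum,
    smul_comm c]

theorem dif_smul [Algebra ℂ A] (c : ℂ) (f : (Fin k → A) → A) (a : Fin (k + 1) → A) :
    hochschildDiff (fun y => c • f y) a = c • hochschildDiff f a := by
  simp only [hochschildDiff, mul_smul_comm, smul_mul_assoc, smul_add, Finset.smul_sum,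
    smul_comm c]

theorem dif_sum {ι : Type*} (S : Finset ι) (f : ι → (Fin k → A) → A) (a : Fin (k + 1) → A) :
    hochschildDiff (fun y => ∑ i ∈ S, f i y) a = ∑ i ∈ S, hochschildDiff (f i) a := by
  classical
  induction S using Finset.induction_on with
  | empty =>
    simp [hochschildDiff]
  | insert i S hi ih =>
    simp only [Finset.sum_insert hi]
    rw [dif_add, ih]

theorem dif_central (c : A) (hc : ∀ x, c * x = x * c) (f : (Fin k → A) → A)
    (a : Fin (k + 1) → A) :
    hochschildDiff (fun y => c * f y) a = c * hochschildDiff f a := by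
  unfold hochschildDiff
  rw [mul_add, mul_add, Finset.mul_sum]
  congr 1
  · congr 1
    · rw [← mul_assoc, ← hc, mul_assoc]
    · refine Finset.sum_congr rfl fun j _ => ?_
      rw [mul_smul_comm]
  · rw [mul_smul_comm, mul_assoc]

end diff

variable {H : Type*} [NormedAddCommGroup H] [InnerProductSpace ℂ H] [CompleteSpace H]
variable {M : VonNeumannAlgebra H} {z : Al M}

/-- a cochain which is `f z - d g` is a cocycle -/
theorem isCocycle_of_eq (hz : ∀ x : Al M, z * x = x * z) {k : ℕ} {f ψ : Coch M (k + 1)}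
    {g : Coch M k} (hf : IsCocycle f)
    (h : ∀ x, f x * z = hochschildDiff g x + ψ x) : IsCocycle ψ := by
  intro a
  have h1 : (fun x => ψ x) = fun x => z * f x - hochschildDiff g x := by
    funext x
    rw [hz, h]
    abel
  have h2 : hochschildDiff (fun x => ψ x) a = 0 := by
    rw [h1, dif_sub, dif_central z hz, hochschildDiff_hochschildDiff, sub_zero]
    have := hf a
    rw [this, mul_zero]
  exact h2

variable {h : ℕ} [NeZero h] {s : Fin h → Al M}

theorem norm_s_le (hz : IsCP M z) (hs : Fam z s) (j : Fin h) : ‖s j‖ ≤ 1 := by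
  have h1 := CStarRing.norm_star_mul_self (x := s j)
  rw [hs.same] at h1
  have h2 := norm_proj_le hz.proj
  nlinarith [norm_nonneg (s j)]

/-- right modular part of a cochain -/
noncomputable def f1 (hz : IsCP M z) (hs : Fam z s) {k : ℕ} (f : Coch M (k + 1)) :
    Coch M (k + 1) :=
  ((lam hz hs).compContinuousMultilinearMap f.curryRight).uncurryRight

theorem f1_snoc (hz : IsCP M z) (hs : Fam z s) {k : ℕ} (f : Coch M (k + 1)) (a : Fin k → Al M)
    (x : Al M) : f1 hz hs f (Fin.snoc a x) = lam hz hs (f.curryRight a) x := by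
  rw [f1, ContinuousMultilinearMap.uncurryRight_apply]
  simp

theorem f1_apply (hz : IsCP M z) (hs : Fam z s) {k : ℕ} (f : Coch M (k + 1))
    (x : Fin (k + 1) → Al M) : f1 hz hs f x =
      (∑ m, f (Fin.snoc (fun i : Fin k => x i.castSucc) (x (Fin.last k) * bb s m)) * cc s m)
      - (∑ m, f (Fin.snoc (fun i : Fin k => x i.castSucc) (bb s m)) * cc s m)
        * x (Fin.last k) := by
  rw [f1, ContinuousMultilinearMap.uncurryRight_apply]
  simp only [ContinuousLinearMap.compContinuousMultilinearMap_coe, Function.comp_apply]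
  rw [lam_apply]
  rfl

theorem norm_f1_le (hz : IsCP M z) (hs : Fam z s) {k : ℕ} (f : Coch M (k + 1)) :
    ‖f1 hz hs f‖ ≤ 2 * ‖f‖ := by
  rw [f1, ContinuousMultilinearMap.uncurryRight_norm]
  refine (ContinuousLinearMap.norm_compContinuousMultilinearMap_le _ _).trans ?_
  rw [ContinuousMultilinearMap.curryRight_norm]
  gcongr
  exact norm_lam_le hz hs

/-- the cochain `χ` -/
noncomputable def chi (hz : IsCP M z) (hs : Fam z s) {k : ℕ} (f : Coch M (k + 1)) : Coch M k :=
  (avg1 hz hs).compContinuousMultilinearMap f.curryRight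


theorem norm_chi_le (hz : IsCP M z) (hs : Fam z s) {k : ℕ} (f : Coch M (k + 1)) :
    ‖chi hz hs f‖ ≤ ‖f‖ := by
  refine (ContinuousLinearMap.norm_compContinuousMultilinearMap_le _ _).trans ?_
  rw [ContinuousMultilinearMap.curryRight_norm]
  calc ‖avg1 hz hs‖ * ‖f‖ ≤ 1 * ‖f‖ := by
        gcongr
        exact norm_avg1_le hz hs
    _ = ‖f‖ := one_mul _

theorem f_eq (hz : IsCP M z) (hs : Fam z s) {k : ℕ} (f : Coch M (k + 1)) (hf : IsCocycle f)
    (x : Fin (k + 1) → Al M) :
    f x = f1 hz hs f x - ((-1 : ℤ) ^ k) • hochschildDiff (chi hz hs f) x := by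
  have h1 := last_avg (bb s) (cc s) (sum_bb_cc hz hs) f hf x
  rw [h1, f1_apply]
  congr 2

theorem f1_cocycle (hz : IsCP M z) (hs : Fam z s) {k : ℕ} (f : Coch M (k + 1))
    (hf : IsCocycle f) : IsCocycle (f1 hz hs f) := by
  intro a
  have h1 : (fun x => f1 hz hs f x)
      = fun x => f x + ((-1 : ℤ) ^ k) • hochschildDiff (chi hz hs f) x := by
    funext x
    rw [f_eq hz hs f hf x]
    abel
  have h2 : hochschildDiff (fun x => f1 hz hs f x) a = 0 := by
    rw [h1, dif_add, dif_zsmul, hochschildDiff_hochschildDiff, smul_zero, add_zero]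
    exact hf a
  exact h2

/-- the linear map `w ↦ (1/h) ∑ s_j^* w s_j` -/
noncomputable def psiL (hz : IsCP M z) (hs : Fam z s) : Al M →L[ℂ] Al M :=
  LinearMap.mkContinuous
    { toFun := fun w => (h : ℂ)⁻¹ • ∑ j, star (s j) * w * s j
      map_add' := by
        intro x y
        simp only [mul_add, add_mul, Finset.sum_add_distrib, smul_add]
      map_smul' := by
        intro c x
        simp only [mul_smul_comm, smul_mul_assoc, ← Finset.smul_sum, RingHom.id_apply]
        rw [smul_comm] }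
    1 (fun w => by
      change ‖(h : ℂ)⁻¹ • ∑ j, star (s j) * w * s j‖ ≤ 1 * ‖w‖
      have hh : (0 : ℝ) < h := by exact_mod_cast Nat.pos_of_ne_zero (NeZero.ne h)
      rw [norm_smul, norm_inv, Complex.norm_natCast]
      have h1 : ‖∑ j, star (s j) * w * s j‖ ≤ (h : ℝ) * ‖w‖ := by
        refine (norm_sum_le _ _).trans ?_
        have h2 : ∀ j ∈ (Finset.univ : Finset (Fin h)), ‖star (s j) * w * s j‖ ≤ ‖w‖ := by
          intro j _
          have h3 := norm_s_le hz hs j
          calc ‖star (s j) * w * s j‖ ≤ ‖star (s j) * w‖ * ‖s j‖ := norm_mul_le _ _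
            _ ≤ (‖star (s j)‖ * ‖w‖) * 1 := by
                gcongr
                exact norm_mul_le _ _
            _ ≤ (1 * ‖w‖) * 1 := by
                gcongr
                rwa [norm_star]
            _ = ‖w‖ := by ring
        refine (Finset.sum_le_sum h2).trans ?_
        rw [Finset.sum_const, Finset.card_univ, Fintype.card_fin, nsmul_eq_mul]
      calc (h : ℝ)⁻¹ * ‖∑ j, star (s j) * w * s j‖ ≤ (h : ℝ)⁻¹ * ((h : ℝ) * ‖w‖) := by gcongr
        _ = 1 * ‖w‖ := by field_simp)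


theorem norm_psiL_le (hz : IsCP M z) (hs : Fam z s) : ‖psiL hz hs‖ ≤ 1 :=
  LinearMap.mkContinuous_norm_le _ zero_le_one _

theorem norm_sgL_le (hz : IsCP M z) (hs : Fam z s) : ‖sgL hz hs‖ ≤ 1 :=
  LinearMap.mkContinuous_norm_le _ zero_le_one _

/-- the reduced cocycle -/
noncomputable def psi (hz : IsCP M z) (hs : Fam z s) {k : ℕ} (f : Coch M (k + 1)) :
    Coch M (k + 1) :=
  (psiL hz hs).compContinuousMultilinearMap
    ((f1 hz hs f).compContinuousLinearMap (fun _ => sgL hz hs))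

theorem psi_apply (hz : IsCP M z) (hs : Fam z s) {k : ℕ} (f : Coch M (k + 1))
    (x : Fin (k + 1) → Al M) :
    psi hz hs f x = (h : ℂ)⁻¹ • ∑ j, star (s j) * f1 hz hs f (fun i => sg s (x i)) * s j := rfl

theorem norm_psi_le (hz : IsCP M z) (hs : Fam z s) {k : ℕ} (f : Coch M (k + 1)) :
    ‖psi hz hs f‖ ≤ 2 * ‖f‖ := by
  refine (ContinuousLinearMap.norm_compContinuousMultilinearMap_le _ _).trans ?_
  have h1 := (f1 hz hs f).norm_compContinuousLinearMap_le (fun _ => sgL hz hs)
  have h2 : ∏ _i : Fin (k + 1), ‖sgL hz hs‖ ≤ 1 :=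
    Finset.prod_le_one (fun i _ => norm_nonneg _) (fun i _ => norm_sgL_le hz hs)
  have h3 := norm_f1_le hz hs f
  have h4 := norm_psiL_le hz hs
  calc ‖psiL hz hs‖ * ‖(f1 hz hs f).compContinuousLinearMap (fun _ => sgL hz hs)‖
      ≤ 1 * (‖f1 hz hs f‖ * 1) := by
        gcongr
        refine h1.trans ?_
        gcongr
    _ ≤ 2 * ‖f‖ := by linarith

theorem psi_snoc (hz : IsCP M z) (hs : Fam z s) {k : ℕ} (f : Coch M (k + 1))
    (a : Fin k → Al M) (x : Al M) :
    psi hz hs f (Fin.snoc a x)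
      = Psi s (lam hz hs (f.curryRight (fun i => sg s (a i)))) x := by
  rw [psi_apply, Psi]
  have h1 : (fun i => sg s ((Fin.snoc a x : Fin (k + 1) → Al M) i))
      = (Fin.snoc (fun i => sg s (a i)) (sg s x) : Fin (k + 1) → Al M) := by
    funext i
    refine Fin.lastCases ?_ (fun i => ?_) i
    · simp
    · simp
  rw [h1, f1_snoc]

theorem psi_MB (hz : IsCP M z) (hs : Fam z s) {k : ℕ} (f : Coch M (k + 1))
    (a : Fin k → Al M) {n : ℕ} (hn : n ≤ h) (X : Fin n → Fin n → Al M)
    (hX : MB (fun p q => (X p q : H →L[ℂ] H)) 1) :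
    MB (fun p q => ((psi hz hs f (Fin.snoc a (X p q)) : Al M) : H →L[ℂ] H))
      (2 * ‖f‖ * ∏ i, ‖a i‖) := by
  simp only [psi_snoc]
  have h1 := Psi_MB hz hs (lam hz hs (f.curryRight (fun i => sg s (a i))))
    (fun y m n => lam_right hz hs _ y m n) (Fin.castLE hn) (Fin.castLE_injective hn) X hX
  intro ξ
  refine (h1 ξ).trans ?_
  have h2 : ‖lam hz hs (f.curryRight (fun i => sg s (a i)))‖ ≤ 2 * ‖f‖ * ∏ i, ‖a i‖ := by
    have h3 : ‖f.curryRight (fun i => sg s (a i))‖ ≤ ‖f‖ * ∏ i, ‖a i‖ := by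
      refine (f.curryRight.le_opNorm _).trans ?_
      rw [ContinuousMultilinearMap.curryRight_norm]
      gcongr with i _
      exact norm_sg_le hz hs (a i)
    calc ‖lam hz hs (f.curryRight (fun i => sg s (a i)))‖
        ≤ ‖lam hz hs‖ * ‖f.curryRight (fun i => sg s (a i))‖ := (lam hz hs).le_opNorm _
      _ ≤ 2 * (‖f‖ * ∏ i, ‖a i‖) := by
          gcongr
          exact norm_lam_le hz hs
      _ = 2 * ‖f‖ * ∏ i, ‖a i‖ := by ring
  gcongr

theorem neg_one_pow_smul {E : Type*} [AddCommGroup E] [Module ℂ E] (k : ℕ) (w : E) :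
    ((-1 : ℂ) ^ k) • w = ((-1 : ℤ) ^ k) • w := by
  rcases Nat.even_or_odd k with h | h
  · rw [h.neg_one_pow, h.neg_one_pow, one_smul, one_smul]
  · rw [h.neg_one_pow, h.neg_one_pow, neg_smul, neg_smul, one_smul, one_smul]

/-- `z χ` -/
noncomputable def zchi (hz : IsCP M z) (hs : Fam z s) {k : ℕ} (f : Coch M (k + 1)) : Coch M k :=
  (ContinuousLinearMap.mul ℂ (Al M) z).compContinuousMultilinearMap (chi hz hs f)

theorem zchi_apply (hz : IsCP M z) (hs : Fam z s) {k : ℕ} (f : Coch M (k + 1))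
    (y : Fin k → Al M) : zchi hz hs f y = z * chi hz hs f y := rfl

theorem norm_zchi_le (hz : IsCP M z) (hs : Fam z s) {k : ℕ} (f : Coch M (k + 1)) :
    ‖zchi hz hs f‖ ≤ ‖f‖ := by
  refine (ContinuousLinearMap.norm_compContinuousMultilinearMap_le _ _).trans ?_
  have h5 : ‖ContinuousLinearMap.mul ℂ (Al M) z‖ ≤ 1 :=
    (ContinuousLinearMap.opNorm_mul_apply_le ℂ (Al M) z).trans (norm_proj_le hz.proj)
  have h6 := norm_chi_le hz hs f
  calc ‖ContinuousLinearMap.mul ℂ (Al M) z‖ * ‖chi hz hs f‖ ≤ 1 * ‖f‖ := by gcongr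
    _ = ‖f‖ := one_mul _

theorem exists_kappa (hz : IsCP M z) (hs : Fam z s) {k : ℕ} (f : Coch M (k + 1))
    (hf : IsCocycle f) (j : Fin h) : ∃ κ : Coch M k, ‖κ‖ ≤ (k + 1) * (2 * ‖f‖) ∧
      ∀ x, z * f1 hz hs f x = hochschildDiff κ x
        + star (s j) * f1 hz hs f (fun i => sg s (x i)) * s j := by
  obtain ⟨κ, h1, h2⟩ := exists_homotopy (f1 hz hs f) (f1_cocycle hz hs f hf) (sgL hz hs)
    (star (s j)) (s j) (fun a b => sg_mul hz hs a b) (fun a => norm_sg_le hz hs a)
    (fun a => star_s_mul_sg hz hs a j) (fun a => sg_mul_s hz hs a j)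
  refine ⟨κ, h1.trans ?_, fun x => ?_⟩
  · have h3 := norm_s_le hz hs j
    have h4 := norm_f1_le hz hs f
    have h5 : ‖star (s j)‖ ≤ 1 := by rwa [norm_star]
    calc ((k : ℝ) + 1) * ‖f1 hz hs f‖ * ‖star (s j)‖ * ‖s j‖
        ≤ ((k : ℝ) + 1) * (2 * ‖f‖) * 1 * 1 := by gcongr
      _ = (k + 1) * (2 * ‖f‖) := by ring
  · have h3 := h2 x
    rw [hs.same] at h3
    exact h3

theorem exists_kap (hz : IsCP M z) (hs : Fam z s) {k : ℕ} (f : Coch M (k + 1))
    (hf : IsCocycle f) : ∃ κ : Coch M k, ‖κ‖ ≤ (k + 1) * (2 * ‖f‖) ∧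
      ∀ x, z * f1 hz hs f x = hochschildDiff κ x + psi hz hs f x := by
  choose κ hκ1 hκ2 using exists_kappa hz hs f hf
  have hh : (0 : ℝ) < h := by exact_mod_cast Nat.pos_of_ne_zero (NeZero.ne h)
  have hhC : (h : ℂ) ≠ 0 := by exact_mod_cast NeZero.ne h
  refine ⟨(h : ℂ)⁻¹ • ∑ j, κ j, ?_, ?_⟩
  · rw [norm_smul, norm_inv, Complex.norm_natCast]
    have h2 : ‖∑ j, κ j‖ ≤ (h : ℝ) * ((k + 1) * (2 * ‖f‖)) := by
      refine (norm_sum_le _ _).trans ?_
      refine (Finset.sum_le_sum fun j _ => hκ1 j).trans ?_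
      rw [Finset.sum_const, Finset.card_univ, Fintype.card_fin, nsmul_eq_mul]
    calc (h : ℝ)⁻¹ * ‖∑ j, κ j‖ ≤ (h : ℝ)⁻¹ * ((h : ℝ) * ((k + 1) * (2 * ‖f‖))) := by gcongr
      _ = (k + 1) * (2 * ‖f‖) := by field_simp
  · intro x
    have h1 : (⇑((h : ℂ)⁻¹ • ∑ j, κ j) : (Fin k → Al M) → Al M)
        = fun y => (h : ℂ)⁻¹ • ∑ j, κ j y := by
      funext y
      rw [smul_apply, sum_apply]
    rw [h1, dif_smul, dif_sum, psi_apply, ← smul_add, ← Finset.sum_add_distrib]
    simp only [← hκ2]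
    rw [Finset.sum_const, Finset.card_univ, Fintype.card_fin, ← Nat.cast_smul_eq_nsmul ℂ,
      smul_smul, inv_mul_cancel₀ hhC, one_smul]

/-- **the reduction for a fixed family** -/
theorem exists_fixed (hz : IsCP M z) (hs : Fam z s) {k : ℕ} (f : Coch M (k + 1))
    (hf : IsCocycle f) : ∃ g : Coch M k, ‖g‖ ≤ (2 * k + 3) * ‖f‖ ∧
      ∀ x, f x * z = hochschildDiff g x + psi hz hs f x := by
  obtain ⟨κ, h1, h2⟩ := exists_kap hz hs f hf
  refine ⟨κ - ((-1 : ℂ) ^ k) • zchi hz hs f, ?_, ?_⟩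
  · refine (norm_sub_le _ _).trans ?_
    have h3 : ‖((-1 : ℂ) ^ k) • zchi hz hs f‖ ≤ ‖f‖ := by
      rw [norm_smul]
      have h4 : ‖((-1 : ℂ) ^ k)‖ = 1 := by simp
      rw [h4, one_mul]
      exact norm_zchi_le hz hs f
    linarith
  · intro x
    have h3 : (⇑(κ - ((-1 : ℂ) ^ k) • zchi hz hs f) : (Fin k → Al M) → Al M)
        = fun y => κ y - ((-1 : ℤ) ^ k) • (z * chi hz hs f y) := by
      funext y
      rw [sub_apply, smul_apply, zchi_apply, neg_one_pow_smul]
    rw [h3, dif_sub, dif_zsmul, dif_central z hz.comm, ← hz.comm]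
    conv_lhs => rw [f_eq hz hs f hf x]
    rw [mul_sub, mul_smul_comm, h2]
    abel

end Crest.Agent.R121.PI
end

-- ▼ part R121/PILim0
section

/-!
Row 121, block PI: ultralimits of cochains.
-/

set_option autoImplicit false
set_option linter.unusedSectionVars false

open scoped InnerProductSpace Topology
open Filter

namespace Crest.Agent.R121.PI

variable {H : Type*} [NormedAddCommGroup H] [InnerProductSpace ℂ H] [CompleteSpace H]
variable {M : VonNeumannAlgebra H} {ι : Type*} {𝒰 : Ultrafilter ι}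

theorem exists_coch_lim {k : ℕ} (F : ι → Coch M k) {K : ℝ} (hF : ∀ i, ‖F i‖ ≤ K) :
    ∃ G : Coch M k, ‖G‖ ≤ K ∧
      ∀ a, WTends 𝒰 (fun i => ((F i a : Al M) : H →L[ℂ] H)) ((G a : Al M) : H →L[ℂ] H) := by
  have hK : 0 ≤ K := by
    obtain ⟨i⟩ : Nonempty ι := 𝒰.neBot.nonempty
    exact (norm_nonneg _).trans (hF i)
  have hb : ∀ a : Fin k → Al M, ∀ i, ‖((F i a : Al M) : H →L[ℂ] H)‖ ≤ K * ∏ j, ‖a j‖ := by
    intro a i
    have h1 := (F i).le_opNorm a
    have h2 := hF i
    refine le_trans h1 ?_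
    gcongr
  have hex : ∀ a : Fin k → Al M, ∃ g : Al M, ‖g‖ ≤ K * ∏ j, ‖a j‖ ∧
      WTends 𝒰 (fun i => ((F i a : Al M) : H →L[ℂ] H)) (g : H →L[ℂ] H) := by
    intro a
    obtain ⟨L, h1, h2⟩ := exists_wtends 𝒰 (hb a)
    exact ⟨⟨L, h2.mem (fun i => (F i a).2)⟩, h1, h2⟩
  choose g hg1 hg2 using hex
  have hadd : ∀ [inst : DecidableEq (Fin k)] (m : Fin k → Al M) (i : Fin k) (x y : Al M),
      g (Function.update m i (x + y)) = g (Function.update m i x) + g (Function.update m i y) := by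
    intro inst m i x y
    apply Subtype.ext
    refine (hg2 _).unique ?_
    have h1 := (hg2 (Function.update m i x)).add (hg2 (Function.update m i y))
    refine (funext fun j => ?_ : (fun j => ((F j (Function.update m i (x + y)) : Al M) : H →L[ℂ] H))
      = fun j => ((F j (Function.update m i x) : Al M) : H →L[ℂ] H)
        + ((F j (Function.update m i y) : Al M) : H →L[ℂ] H)) ▸ h1
    rw [(F j).map_update_add]
    rfl
  have hsmul : ∀ [inst : DecidableEq (Fin k)] (m : Fin k → Al M) (i : Fin k) (c : ℂ) (x : Al M),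
      g (Function.update m i (c • x)) = c • g (Function.update m i x) := by
    intro inst m i c x
    apply Subtype.ext
    refine (hg2 _).unique ?_
    have h1 := (hg2 (Function.update m i x)).smul c
    refine (funext fun j => ?_ : (fun j => ((F j (Function.update m i (c • x)) : Al M) : H →L[ℂ] H))
      = fun j => c • ((F j (Function.update m i x) : Al M) : H →L[ℂ] H)) ▸ h1
    rw [(F j).map_update_smul]
    rfl
  let G0 : MultilinearMap ℂ (fun _ : Fin k => Al M) (Al M) :=
    { toFun := g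
      map_update_add' := hadd
      map_update_smul' := hsmul }
  refine ⟨G0.mkContinuous K hg1, G0.mkContinuous_norm_le hK hg1, fun a => hg2 a⟩

theorem WTends.finset_sum {κ : Type*} (S : Finset κ) {F : κ → ι → H →L[ℂ] H} {L : κ → H →L[ℂ] H}
    (h : ∀ j ∈ S, WTends 𝒰 (F j) (L j)) :
    WTends 𝒰 (fun i => ∑ j ∈ S, F j i) (∑ j ∈ S, L j) := by
  classical
  induction S using Finset.induction_on with
  | empty =>
    simp only [Finset.sum_empty]
    exact WTends.const 0
  | insert a S ha ih =>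
    simp only [Finset.sum_insert ha]
    exact (h a (Finset.mem_insert_self a S)).add
      (ih (fun j hj => h j (Finset.mem_insert_of_mem hj)))

theorem WTends.zsmul {F : ι → H →L[ℂ] H} {L : H →L[ℂ] H} (h : WTends 𝒰 F L) (n : ℤ) :
    WTends 𝒰 (fun i => n • F i) (n • L) := by
  have h1 := h.smul (n : ℂ)
  simpa only [Int.cast_smul_eq_zsmul] using h1

open Crest.OpAlg in
theorem hochschildDiff_wtends {k : ℕ} (F : ι → Coch M k) (G : Coch M k)
    (h : ∀ a, WTends 𝒰 (fun i => ((F i a : Al M) : H →L[ℂ] H)) ((G a : Al M) : H →L[ℂ] H))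
    (b : Fin (k + 1) → Al M) :
    WTends 𝒰 (fun i => ((hochschildDiff (F i) b : Al M) : H →L[ℂ] H))
      ((hochschildDiff G b : Al M) : H →L[ℂ] H) := by
  have key : ∀ f : Coch M k, ((hochschildDiff f b : Al M) : H →L[ℂ] H)
      = (b 0 : H →L[ℂ] H) * ((f (fun i => b i.succ) : Al M) : H →L[ℂ] H)
        + (∑ j : Fin k, ((-1 : ℤ) ^ (j.val + 1)) • ((f (mergeArgs j b) : Al M) : H →L[ℂ] H))
        + ((-1 : ℤ) ^ (k + 1)) • (((f (fun i => b i.castSucc) : Al M) : H →L[ℂ] H)
            * (b (Fin.last k) : H →L[ℂ] H)) := by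
    intro f
    rw [hochschildDiff]
    push_cast
    rfl
  simp only [key]
  refine ((h _).mul_left _ |>.add ?_).add ?_
  · exact WTends.finset_sum _ (fun j _ => WTends.zsmul (h _) _)
  · exact WTends.zsmul ((h _).mul_right _) _

theorem WTends.apply {F : ι → H →L[ℂ] H} {L : H →L[ℂ] H} (h : WTends 𝒰 F L) (ξ η : H) :
    Tendsto (fun i => ⟪F i ξ, η⟫_ℂ) 𝒰 (𝓝 ⟪L ξ, η⟫_ℂ) := h ξ η

theorem isCB_of_wtends (F : ι → En M) (T : En M)
    (h : ∀ x, WTends 𝒰 (fun i => ((F i x : Al M) : H →L[ℂ] H)) ((T x : Al M) : H →L[ℂ] H))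
    {K : ℝ} (hK : 0 ≤ K)
    (hcb : ∀ n : ℕ, ∀ᶠ i in (𝒰 : Filter ι), ∀ X : Fin n → Fin n → Al M,
      MB (fun p q => (X p q : H →L[ℂ] H)) 1 →
        MB (fun p q => ((F i (X p q) : Al M) : H →L[ℂ] H)) K) :
    IsCB K T := by
  refine ⟨hK, fun n X hX ξ => ?_⟩
  set η : Fin n → H := fun p => ∑ q, ((T (X p q) : Al M) : H →L[ℂ] H) (ξ q) with hη
  -- the pairing
  have hlim : Tendsto (fun i => ∑ p, ⟪∑ q, ((F i (X p q) : Al M) : H →L[ℂ] H) (ξ q), η p⟫_ℂ) 𝒰
      (𝓝 (∑ p, ⟪η p, η p⟫_ℂ)) := by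
    refine tendsto_finsetSum _ fun p _ => ?_
    have h1 : ∀ i, ⟪∑ q, ((F i (X p q) : Al M) : H →L[ℂ] H) (ξ q), η p⟫_ℂ
        = ∑ q, ⟪((F i (X p q) : Al M) : H →L[ℂ] H) (ξ q), η p⟫_ℂ := fun i => sum_inner _ _ _
    have h2 : ⟪η p, η p⟫_ℂ = ∑ q, ⟪((T (X p q) : Al M) : H →L[ℂ] H) (ξ q), η p⟫_ℂ := by
      conv_lhs => rw [hη]
      simp only
      rw [sum_inner]
    simp only [h1]
    rw [h2]
    exact tendsto_finsetSum _ fun q _ => h (X p q) (ξ q) (η p)
  set A : ℝ := ∑ p, ‖η p‖ ^ 2 with hA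
  set B : ℝ := ∑ q, ‖ξ q‖ ^ 2 with hB
  have hA0 : 0 ≤ A := Finset.sum_nonneg fun p _ => by positivity
  have hB0 : 0 ≤ B := Finset.sum_nonneg fun p _ => by positivity
  have hev : ∀ᶠ i in (𝒰 : Filter ι),
      ‖∑ p, ⟪∑ q, ((F i (X p q) : Al M) : H →L[ℂ] H) (ξ q), η p⟫_ℂ‖
        ≤ Real.sqrt (K ^ 2 * B) * Real.sqrt A := by
    filter_upwards [hcb n] with i hi
    have h1 := hi X hX ξ
    refine (norm_sum_le _ _).trans ?_
    refine (Finset.sum_le_sum fun p _ => norm_inner_le_norm _ _).trans ?_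
    refine (Real.sum_mul_le_sqrt_mul_sqrt _ _ _).trans ?_
    gcongr
  have hle := le_of_tendsto hlim.norm hev
  have hAA : ‖∑ p, ⟪η p, η p⟫_ℂ‖ = A := by
    have : ∑ p, ⟪η p, η p⟫_ℂ = ((A : ℝ) : ℂ) := by
      rw [hA, Complex.ofReal_sum]
      refine Finset.sum_congr rfl fun p _ => ?_
      rw [inner_self_eq_norm_sq_to_K]
      simp
    rw [this, Complex.norm_real, Real.norm_of_nonneg hA0]
  rw [hAA] at hle
  change A ≤ K ^ 2 * B
  have h3 : A = Real.sqrt A * Real.sqrt A := (Real.mul_self_sqrt hA0).symm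
  have h4 : K ^ 2 * B = Real.sqrt (K ^ 2 * B) * Real.sqrt (K ^ 2 * B) :=
    (Real.mul_self_sqrt (by positivity)).symm
  have h5 : Real.sqrt A ≤ Real.sqrt (K ^ 2 * B) := by
    rcases eq_or_lt_of_le (Real.sqrt_nonneg A) with h6 | h6
    · rw [← h6]
      exact Real.sqrt_nonneg _
    · have h7 : Real.sqrt A * Real.sqrt A ≤ Real.sqrt (K ^ 2 * B) * Real.sqrt A := by
        rw [← h3]
        exact hle
      exact le_of_mul_le_mul_right h7 h6
  calc A = Real.sqrt A * Real.sqrt A := h3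
    _ ≤ Real.sqrt (K ^ 2 * B) * Real.sqrt (K ^ 2 * B) := by gcongr
    _ = K ^ 2 * B := h4.symm

end Crest.Agent.R121.PI
end

-- ▼ part R121/PI

/-!
Row 121, block PI: **properly infinite central projections**: every cocycle is, up to a
coboundary, completely bounded in the last variable.
-/

set_option autoImplicit false
set_option linter.unusedSectionVars false

open scoped InnerProductSpace Topology
open Filter

namespace Crest.Agent.R121

variable {H : Type*} [NormedAddCommGroup H] [InnerProductSpace ℂ H] [CompleteSpace H]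

namespace PI

variable {M : VonNeumannAlgebra H} {z : Al M}

/-- `s^i t` -/
noncomputable def ww (s t : Al M) (i : ℕ) : Al M := s ^ i * t

theorem ww_succ (s t : Al M) (i : ℕ) : ww s t (i + 1) = s * ww s t i := by
  rw [ww, ww, pow_succ', mul_assoc]

theorem ww_same (hz : IsCP M z) {s t : Al M} (hs : star s * s = z) (ht : star t * t = z) (i : ℕ) :
    star (ww s t i) * ww s t i = z := by
  induction i with
  | zero => simpa [ww] using ht
  | succ i ih =>
    rw [ww_succ, star_mul]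
    have : star (ww s t i) * star s * (s * ww s t i)
        = star (ww s t i) * ((star s * s) * ww s t i) := by simp only [mul_assoc]
    rw [this, hs, hz.comm, ← mul_assoc, ih]
    exact hz.proj.isIdempotentElem.eq

theorem ww_diff (hz : IsCP M z) {s t : Al M} (hs : star s * s = z) (hst : star s * t = 0)
    (i d : ℕ) : star (ww s t i) * ww s t (i + d + 1) = 0 := by
  induction i with
  | zero =>
    rw [ww_succ, ← mul_assoc]
    have h1 : star (ww s t 0) * s = 0 := by
      have h2 := congrArg star hst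
      rw [star_mul, star_star, star_zero] at h2
      simpa [ww] using h2
    rw [h1, zero_mul]
  | succ i ih =>
    have e : i + 1 + d + 1 = (i + d + 1) + 1 := by ring
    rw [e, ww_succ, ww_succ, star_mul]
    have : star (ww s t i) * star s * (s * ww s t (i + d + 1))
        = star (ww s t i) * ((star s * s) * ww s t (i + d + 1)) := by simp only [mul_assoc]
    rw [this, hs, hz.comm, ← mul_assoc, ih, zero_mul]

theorem fam_ww (hz : IsCP M z) {s t : Al M} (hs : star s * s = z) (ht : star t * t = z)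
    (hst : star s * t = 0) (h : ℕ) : Fam z (fun i : Fin h => ww s t i.val) := by
  refine ⟨fun i => ww_same hz hs ht i.val, fun i j hij => ?_⟩
  rcases lt_or_gt_of_ne (fun h' => hij (Fin.ext h') : i.val ≠ j.val) with h1 | h1
  · obtain ⟨d, hd⟩ := Nat.exists_eq_add_of_lt h1
    have : j.val = i.val + d + 1 := by omega
    rw [this]
    exact ww_diff hz hs hst i.val d
  · obtain ⟨d, hd⟩ := Nat.exists_eq_add_of_lt h1
    have : i.val = j.val + d + 1 := by omega
    rw [this]
    have h2 := congrArg star (ww_diff hz hs hst j.val d)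
    rwa [star_mul, star_star, star_zero] at h2

end PI

open PI

/-- **Block PI** -/
theorem pi_red (M : VonNeumannAlgebra H) (k : ℕ) :
    ∃ Ck : ℝ, 0 ≤ Ck ∧ ∀ z : Al M, IsCP M z → IsPI z → ∀ f : Coch M (k + 1), IsCocycle f →
      ∃ (g : Coch M k) (ψ : Coch M (k + 1)), ‖g‖ ≤ Ck * ‖f‖ ∧
      IsCocycle ψ ∧ (∀ x, f x * z = Crest.OpAlg.hochschildDiff g x + ψ x) ∧
      ∀ a : Fin k → Al M, IsCB (Ck * ‖f‖ * ∏ i, ‖a i‖) (ψ.curryRight a) := by
  refine ⟨2 * k + 3, by positivity, ?_⟩
  rintro z hz ⟨s, t, hs, ht, hst⟩ f hf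
  have hfam : ∀ i : ℕ, Fam z (fun j : Fin (i + 1) => ww s t j.val) :=
    fun i => fam_ww hz hs ht hst (i + 1)
  choose G hG1 hG2 using fun i : ℕ => exists_fixed hz (hfam i) f hf
  set Ψ : ℕ → Coch M (k + 1) := fun i => psi hz (hfam i) f with hΨ
  obtain ⟨g, hg1, hg2⟩ := exists_coch_lim (𝒰 := hyperfilter ℕ) G (K := (2 * k + 3) * ‖f‖) hG1
  obtain ⟨ψ, _, hψ2⟩ := exists_coch_lim (𝒰 := hyperfilter ℕ) Ψ (K := 2 * ‖f‖)
    (fun i => norm_psi_le hz (hfam i) f)
  have hrel : ∀ x, f x * z = Crest.OpAlg.hochschildDiff g x + ψ x := by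
    intro x
    apply Subtype.ext
    have h1 := (hochschildDiff_wtends G g hg2 x).add (hψ2 x)
    have h2 : (fun i : ℕ => ((Crest.OpAlg.hochschildDiff (G i) x : Al M) : H →L[ℂ] H)
        + ((Ψ i x : Al M) : H →L[ℂ] H)) = fun _ => ((f x * z : Al M) : H →L[ℂ] H) := by
      funext i
      rw [hG2 i x]
      rfl
    rw [h2] at h1
    exact (WTends.const _).unique h1
  refine ⟨g, ψ, hg1, isCocycle_of_eq hz.comm hf hrel, hrel, fun a => ?_⟩
  refine isCB_of_wtends (𝒰 := hyperfilter ℕ) (fun i => (Ψ i).curryRight a) (ψ.curryRight a)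
    (fun x => ?_) (by positivity) (fun n => ?_)
  · exact hψ2 (Fin.snoc a x)
  · have hev : ∀ᶠ i in (hyperfilter ℕ : Filter ℕ), n ≤ i + 1 := by
      have : ∀ᶠ i in (atTop : Filter ℕ), n ≤ i + 1 := by
        filter_upwards [eventually_ge_atTop n] with i hi
        omega
      exact Nat.hyperfilter_le_atTop this
    filter_upwards [hev] with i hi X hX
    have h1 := psi_MB hz (hfam i) f a hi X hX
    intro ξ
    refine (h1 ξ).trans ?_
    have h2 : 2 * ‖f‖ * ∏ i, ‖a i‖ ≤ (2 * k + 3) * ‖f‖ * ∏ i, ‖a i‖ := by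
      have h3 : (2 : ℝ) ≤ 2 * k + 3 := by
        have : (0 : ℝ) ≤ k := by positivity
        linarith
      gcongr
    gcongr

end Crest.Agent.R121
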