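import Crest.Agent.R121.Defs
import Crest.Agent.R121.BMain
import Mathlib.Analysis.CStarAlgebra.Unitary.Span

-- ▼ part R121/CBS
section

/-!
# Row 121: the scale of completely bounded maps
-/

set_option autoImplicit false
set_option linter.unusedSectionVars false

namespace Crest.Agent.R121

open scoped InnerProductSpace

noncomputable section

universe u

variable {H : Type u} [NormedAddCommGroup H] [InnerProductSpace ℂ H] [CompleteSpace H]
variable {M : VonNeumannAlgebra H}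

namespace CBaux

lemma sq_add_le {ι : Type} [Fintype ι] (a b : ι → H) (A B : ℝ) (hA : 0 ≤ A) (hB : 0 ≤ B)
    (ha : ∑ i, ‖a i‖ ^ 2 ≤ A ^ 2) (hb : ∑ i, ‖b i‖ ^ 2 ≤ B ^ 2) :
    ∑ i, ‖a i + b i‖ ^ 2 ≤ (A + B) ^ 2 := by
  have h1 : ∑ i, ‖a i‖ * ‖b i‖ ≤ A * B := by
    have h2 : (∑ i, ‖a i‖ * ‖b i‖) ^ 2 ≤ (∑ i, ‖a i‖ ^ 2) * ∑ i, ‖b i‖ ^ 2 :=
      Finset.sum_mul_sq_le_sq_mul_sq _ _ _
    have h3 : (∑ i, ‖a i‖ * ‖b i‖) ^ 2 ≤ (A * B) ^ 2 := by
      rw [mul_pow]
      refine h2.trans (mul_le_mul ha hb ?_ (sq_nonneg _))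
      exact Finset.sum_nonneg fun _ _ => sq_nonneg _
    exact (abs_le_of_sq_le_sq' h3 (mul_nonneg hA hB)).2
  calc ∑ i, ‖a i + b i‖ ^ 2 ≤ ∑ i, (‖a i‖ ^ 2 + 2 * (‖a i‖ * ‖b i‖) + ‖b i‖ ^ 2) := by
        refine Finset.sum_le_sum fun i _ => ?_
        have := norm_add_le (a i) (b i)
        nlinarith [norm_nonneg (a i + b i), norm_nonneg (a i), norm_nonneg (b i)]
    _ = ∑ i, ‖a i‖ ^ 2 + 2 * ∑ i, ‖a i‖ * ‖b i‖ + ∑ i, ‖b i‖ ^ 2 := by
        rw [Finset.sum_add_distrib, Finset.sum_add_distrib, Finset.mul_sum]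
    _ ≤ A ^ 2 + 2 * (A * B) + B ^ 2 := by linarith
    _ = (A + B) ^ 2 := by ring

lemma mb_add {ι κ : Type} [Fintype ι] [Fintype κ] {X Y : ι → κ → (H →L[ℂ] H)} {c d : ℝ}
    (hc : 0 ≤ c) (hd : 0 ≤ d) (hX : MB X c) (hY : MB Y d) :
    MB (fun i j => X i j + Y i j) (c + d) := by
  intro ξ
  have hS : 0 ≤ ∑ j, ‖ξ j‖ ^ 2 := Finset.sum_nonneg fun _ _ => sq_nonneg _
  set s : ℝ := √(∑ j, ‖ξ j‖ ^ 2) with hs
  have hss : s ^ 2 = ∑ j, ‖ξ j‖ ^ 2 := Real.sq_sqrt hS
  have hs0 : 0 ≤ s := Real.sqrt_nonneg _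
  have h1 := hX ξ
  have h2 := hY ξ
  rw [← hss, ← mul_pow] at h1 h2 ⊢
  rw [add_mul]
  have h3 : ∀ i, ∑ j, (X i j + Y i j) (ξ j) = ∑ j, X i j (ξ j) + ∑ j, Y i j (ξ j) := by
    intro i
    rw [← Finset.sum_add_distrib]
    rfl
  simp only [h3]
  exact sq_add_le _ _ _ _ (mul_nonneg hc hs0) (mul_nonneg hd hs0) h1 h2

lemma mb_mono {ι κ : Type} [Fintype ι] [Fintype κ] {X : ι → κ → (H →L[ℂ] H)} {c d : ℝ}
    (hc : 0 ≤ c) (hcd : c ≤ d) (hX : MB X c) : MB X d := by
  intro ξ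
  refine (hX ξ).trans ?_
  have hS : 0 ≤ ∑ j, ‖ξ j‖ ^ 2 := Finset.sum_nonneg fun _ _ => sq_nonneg _
  gcongr

lemma mb_smul {ι κ : Type} [Fintype ι] [Fintype κ] {X : ι → κ → (H →L[ℂ] H)} {c : ℝ} (r : ℂ)
    (hX : MB X c) : MB (fun i j => r • X i j) (‖r‖ * c) := by
  intro ξ
  have h1 : ∀ i, ∑ j, (r • X i j) (ξ j) = r • ∑ j, X i j (ξ j) := by
    intro i
    rw [Finset.smul_sum]
    rfl
  simp only [h1, norm_smul, mul_pow, ← Finset.mul_sum, mul_assoc]
  exact mul_le_mul_of_nonneg_left (hX ξ) (sq_nonneg _)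

lemma mb_lmul {ι κ : Type} [Fintype ι] [Fintype κ] {X : ι → κ → (H →L[ℂ] H)} {c : ℝ}
    (a : H →L[ℂ] H) (hX : MB X c) : MB (fun i j => a * X i j) (‖a‖ * c) := by
  intro ξ
  have h1 : ∀ i, ∑ j, (a * X i j) (ξ j) = a (∑ j, X i j (ξ j)) := by
    intro i
    rw [map_sum]
    rfl
  simp only [h1]
  calc ∑ i, ‖a (∑ j, X i j (ξ j))‖ ^ 2 ≤ ∑ i, ‖a‖ ^ 2 * ‖∑ j, X i j (ξ j)‖ ^ 2 := by
        refine Finset.sum_le_sum fun i _ => ?_
        rw [← mul_pow]
        exact pow_le_pow_left₀ (norm_nonneg _) (a.le_opNorm _) 2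
    _ = ‖a‖ ^ 2 * ∑ i, ‖∑ j, X i j (ξ j)‖ ^ 2 := by rw [Finset.mul_sum]
    _ ≤ ‖a‖ ^ 2 * (c ^ 2 * ∑ j, ‖ξ j‖ ^ 2) := mul_le_mul_of_nonneg_left (hX ξ) (sq_nonneg _)
    _ = _ := by ring

lemma mb_zero {ι κ : Type} [Fintype ι] [Fintype κ] {c : ℝ} :
    MB (fun (_ : ι) (_ : κ) => (0 : H →L[ℂ] H)) c := by
  intro ξ
  simp only [zero_apply, Finset.sum_const_zero, norm_zero, ne_eq,
    OfNat.ofNat_ne_zero, not_false_eq_true, zero_pow]
  exact mul_nonneg (sq_nonneg _) (Finset.sum_nonneg fun _ _ => sq_nonneg _)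

lemma mb_scale {ι κ : Type} [Fintype ι] [Fintype κ] {X : ι → κ → (H →L[ℂ] H)} {c : ℝ}
    (hc : 0 < c) (hX : MB X c) : MB (fun i j => ((c : ℂ)⁻¹) • X i j) 1 := by
  have h := mb_smul ((c : ℂ)⁻¹) hX
  have h1 : ‖(c : ℂ)⁻¹‖ * c = 1 := by
    rw [norm_inv, Complex.norm_real, Real.norm_of_nonneg hc.le, inv_mul_cancel₀ hc.ne']
  rwa [h1] at h

end CBaux

open CBaux

/-- the scale of completely bounded maps -/
def cbS (M : VonNeumannAlgebra H) : Scale M where
  mem K T := IsCB K T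
  nonneg h := h.1
  mono h h' := ⟨h.1.trans h', fun n X hX => mb_mono h.1 h' (h.2 n X hX)⟩
  zero := ⟨le_rfl, fun n X _ => mb_zero⟩
  add h h' := ⟨add_nonneg h.1 h'.1, fun n X hX => mb_add h.1 h'.1 (h.2 n X hX) (h'.2 n X hX)⟩
  smul c K T h := ⟨mul_nonneg (norm_nonneg _) h.1, fun n X hX => mb_smul c (h.2 n X hX)⟩
  lmul a K T h := ⟨mul_nonneg (norm_nonneg _) h.1, fun n X hX =>
    mb_lmul (a : H →L[ℂ] H) (h.2 n X hX)⟩
  comp a K T h := ⟨mul_nonneg h.1 (norm_nonneg _), fun n X hX => by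
    rcases eq_or_ne a 0 with rfl | ha
    · have h1 : ∀ i j, (((T ∘L Lm (0 : Al M)) (X i j) : Al M) : H →L[ℂ] H) = 0 := by
        intro i j
        have : (T ∘L Lm (0 : Al M)) (X i j) = T ((0 : Al M) * X i j) := rfl
        rw [this, zero_mul, map_zero]
        rfl
      simp only [h1]
      exact mb_zero
    · have ha' : 0 < ‖a‖ := norm_pos_iff.2 ha
      have h1 : MB (fun i j => (a : H →L[ℂ] H) * (X i j : H →L[ℂ] H)) ‖a‖ := by
        have := mb_lmul (a : H →L[ℂ] H) hX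
        rw [mul_one] at this
        exact this
      have h2 := mb_scale ha' h1
      have h3 := h.2 n (fun i j => ((‖a‖ : ℂ)⁻¹) • (a * X i j)) h2
      have h4 := mb_smul (‖a‖ : ℂ) h3
      rw [Complex.norm_real, norm_norm, mul_comm ‖a‖ K] at h4
      have h5 : ∀ i j, (((T ∘L Lm a) (X i j) : Al M) : H →L[ℂ] H)
          = (‖a‖ : ℂ) • ((T (((‖a‖ : ℂ)⁻¹) • (a * X i j)) : Al M) : H →L[ℂ] H) := by
        intro i j
        have h6 : (‖a‖ : ℂ) • T (((‖a‖ : ℂ)⁻¹) • (a * X i j)) = (T ∘L Lm a) (X i j) := by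
          rw [map_smul, smul_smul, mul_inv_cancel₀ (by exact_mod_cast ha'.ne'), one_smul]
          rfl
        rw [← h6]
        rfl
      simp only [h5]
      exact h4⟩
  mul d := ⟨norm_nonneg _, fun n X hX => by
    have := mb_lmul (d : H →L[ℂ] H) hX
    rw [mul_one] at this
    exact this⟩

end

end Crest.Agent.R121
end

-- ▼ part R121/CB

/-!
# Row 121, block B: the averaging functional `ρ` on completely bounded maps
-/

set_option autoImplicit false
set_option linter.unusedSectionVars false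

namespace Crest.Agent.R121

open scoped InnerProductSpace
open Filter Topology

noncomputable section

universe u

variable {H : Type u} [NormedAddCommGroup H] [InnerProductSpace ℂ H] [CompleteSpace H]
variable {M : VonNeumannAlgebra H}

namespace B

lemma isClosed_M (M : VonNeumannAlgebra H) : IsClosed (M.toStarSubalgebra : Set (H →L[ℂ] H)) := by
  have h : (M.toStarSubalgebra : Set (H →L[ℂ] H))
      = Set.centralizer (Set.centralizer (M.toStarSubalgebra : Set (H →L[ℂ] H))) :=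
    M.centralizer_centralizer'.symm
  rw [h]
  exact Set.isClosed_centralizer _

lemma mem_span_unitary (a : M.toStarSubalgebra) :
    a ∈ Submodule.span ℂ (unitary M.toStarSubalgebra : Set M.toStarSubalgebra) := by
  have : IsClosed (M.toStarSubalgebra : Set (H →L[ℂ] H)) := isClosed_M M
  have h : Submodule.span ℂ (unitary M.toStarSubalgebra : Set M.toStarSubalgebra) = ⊤ :=
    CStarAlgebra.span_unitary M.toStarSubalgebra
  rw [h]
  exact Submodule.mem_top

lemma cbd_of_isCB {T : En M} {K : ℝ} (hT : IsCB K T) :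
    CBd (T : M.toStarSubalgebra →ₗ[ℂ] M.toStarSubalgebra) K := by
  classical
  intro I J _ _ y hy ζ
  set e := Fintype.equivFin (I ⊕ J) with he
  let X : Fin (Fintype.card (I ⊕ J)) → Fin (Fintype.card (I ⊕ J)) → Al M := fun a b =>
    Sum.elim (fun i => Sum.elim (fun _ => (0 : Al M)) (fun j => y i j) (e.symm b))
      (fun _ => 0) (e.symm a)
  have hX : MB (fun a b => (X a b : H →L[ℂ] H)) 1 := by
    intro ξ
    rw [← e.sum_comp (fun a => ‖∑ b, (X a b : H →L[ℂ] H) (ξ b)‖ ^ 2),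
      ← e.sum_comp (fun b => ‖ξ b‖ ^ 2), Fintype.sum_sum_type, Fintype.sum_sum_type]
    have h1 : ∀ i : I, ∑ b, (X (e (Sum.inl i)) b : H →L[ℂ] H) (ξ b)
        = ∑ j, act (y i j) (ξ (e (Sum.inr j))) := by
      intro i
      rw [← e.sum_comp (fun b => (X (e (Sum.inl i)) b : H →L[ℂ] H) (ξ b)), Fintype.sum_sum_type]
      simp [X]
    have h2 : ∀ j : J, ∑ b, (X (e (Sum.inr j)) b : H →L[ℂ] H) (ξ b) = 0 := by
      intro j
      refine Finset.sum_eq_zero fun b _ => ?_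
      simp [X]
    simp only [h1, h2]
    have h3 := hy (fun j => ξ (e (Sum.inr j)))
    have h4 : 0 ≤ ∑ i : I, ‖ξ (e (Sum.inl i))‖ ^ 2 := Finset.sum_nonneg fun _ _ => sq_nonneg _
    simp only [norm_zero, ne_eq, OfNat.ofNat_ne_zero, not_false_eq_true, zero_pow,
      Finset.sum_const_zero, add_zero, one_pow, one_mul]
    linarith
  have h5 := hT.2 _ X hX (fun b => Sum.elim (fun _ => (0 : H)) (fun j => ζ j) (e.symm b))
  rw [← e.sum_comp, ← e.sum_comp (fun b =>
    ‖(Sum.elim (fun _ => (0 : H)) (fun j => ζ j) (e.symm b) : H)‖ ^ 2), Fintype.sum_sum_type,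
    Fintype.sum_sum_type] at h5
  have h6 : ∀ i : I, ∑ b, (T (X (e (Sum.inl i)) b) : H →L[ℂ] H)
      (Sum.elim (fun _ => (0 : H)) (fun j => ζ j) (e.symm b)) = ∑ j, act (T (y i j)) (ζ j) := by
    intro i
    rw [← e.sum_comp, Fintype.sum_sum_type]
    simp [X]
  simp only [h6] at h5
  have h7 : 0 ≤ ∑ j : J, ‖∑ b, (T (X (e (Sum.inr j)) b) : H →L[ℂ] H)
      (Sum.elim (fun _ => (0 : H)) (fun j => ζ j) (e.symm b))‖ ^ 2 :=
    Finset.sum_nonneg fun _ _ => sq_nonneg _
  simp only [Equiv.symm_apply_apply, Sum.elim_inl, Sum.elim_inr, norm_zero, ne_eq,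
    OfNat.ofNat_ne_zero, not_false_eq_true, zero_pow, Finset.sum_const_zero, zero_add] at h5 h7
  change ∑ i, ‖∑ j, act (T (y i j)) (ζ j)‖ ^ 2 ≤ _
  linarith

/-- the chosen ultrafilter -/
def WW (M : VonNeumannAlgebra H) : Ultrafilter (Col M) := (exists_modular_ultrafilter M).choose

lemma WW_spec (M : VonNeumannAlgebra H) (T : M.toStarSubalgebra →ₗ[ℂ] M.toStarSubalgebra) (C : ℝ)
    (hT : CBd T C) (y u : M.toStarSubalgebra) (hu : star u * u = 1) (hu' : u * star u = 1)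
    (ξ η : H) :
    Tendsto (fun b => ⟪η, act (av b T y - av b T (y * star u) * u) ξ⟫_ℂ) (WW M) (𝓝 0) :=
  (exists_modular_ultrafilter M).choose_spec T C hT y u hu hu' ξ η

/-- weak convergence along `WW M` -/
def IsL (x : Col M → M.toStarSubalgebra) (D : M.toStarSubalgebra) : Prop :=
  ∀ ξ η : H, Tendsto (fun b => ⟪η, act (x b) ξ⟫_ℂ) (WW M) (𝓝 ⟪η, act D ξ⟫_ℂ)

lemma IsL.unique {x : Col M → M.toStarSubalgebra} {D D' : M.toStarSubalgebra} (h : IsL x D)
    (h' : IsL x D') : D = D' :=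
  Subtype.ext (ContinuousLinearMap.ext fun v => ext_inner_left ℂ fun w =>
    tendsto_nhds_unique (h v w) (h' v w))

lemma IsL.add {x x' : Col M → M.toStarSubalgebra} {D D' : M.toStarSubalgebra} (h : IsL x D)
    (h' : IsL x' D') : IsL (fun b => x b + x' b) (D + D') := by
  intro ξ η
  simp only [act_add, inner_add_right]
  exact (h ξ η).add (h' ξ η)

lemma IsL.smul {x : Col M → M.toStarSubalgebra} {D : M.toStarSubalgebra} (h : IsL x D) (c : ℂ) :
    IsL (fun b => c • x b) (c • D) := by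
  intro ξ η
  simp only [act_smul, inner_smul_right]
  exact (h ξ η).const_mul c

lemma IsL.mul_left {x : Col M → M.toStarSubalgebra} {D : M.toStarSubalgebra} (h : IsL x D)
    (a : M.toStarSubalgebra) : IsL (fun b => a * x b) (a * D) := by
  intro ξ η
  have h1 : ∀ y : M.toStarSubalgebra, ⟪η, act (a * y) ξ⟫_ℂ = ⟪act (star a) η, act y ξ⟫_ℂ := by
    intro y
    rw [act_mul, inner_act_left]
  simp only [h1]
  exact h ξ _

lemma IsL.mul_right {x : Col M → M.toStarSubalgebra} {D : M.toStarSubalgebra} (h : IsL x D)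
    (a : M.toStarSubalgebra) : IsL (fun b => x b * a) (D * a) := fun ξ η => h (act a ξ) η

lemma IsL.const (D : M.toStarSubalgebra) : IsL (fun _ => D) D := fun _ _ => tendsto_const_nhds

open Classical in
/-- the averaging functional -/
def rhoB (T : En M) : Al M :=
  if h : ∃ D, IsL (fun b => av b (T : M.toStarSubalgebra →ₗ[ℂ] M.toStarSubalgebra) 1) D then
    h.choose else 0

lemma rhoB_eq {T : En M} {D : Al M}
    (h : IsL (fun b => av b (T : M.toStarSubalgebra →ₗ[ℂ] M.toStarSubalgebra) 1) D) :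
    rhoB T = D := by
  have h1 : ∃ D, IsL (fun b => av b (T : M.toStarSubalgebra →ₗ[ℂ] M.toStarSubalgebra) 1) D :=
    ⟨D, h⟩
  rw [rhoB, dif_pos h1]
  exact h1.choose_spec.unique h

lemma rhoB_isL {T : En M} {K : ℝ} (hT : IsCB K T) :
    ‖rhoB T‖ ≤ K ∧
      IsL (fun b => av b (T : M.toStarSubalgebra →ₗ[ℂ] M.toStarSubalgebra) 1) (rhoB T) := by
  have hc := cbd_of_isCB hT
  obtain ⟨D, hDn, hD⟩ := exists_wot_lim (WW M)
    (fun b => av b (T : M.toStarSubalgebra →ₗ[ℂ] M.toStarSubalgebra) 1) K (fun b => by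
      have h1 := (hc.av b).norm_le hT.1 1
      have h2 : ‖(1 : M.toStarSubalgebra)‖ ≤ 1 := norm_le_one_of_unitary 1 (by simp)
      exact h1.trans (mul_le_of_le_one_right hT.1 h2))
  have h1 : rhoB T = D := rhoB_eq hD
  rw [h1]
  exact ⟨hDn, hD⟩

lemma isL_apply {T : En M} {K : ℝ} (hT : IsCB K T) (a : Al M) :
    IsL (fun b => av b (T : M.toStarSubalgebra →ₗ[ℂ] M.toStarSubalgebra) a) (rhoB T * a) := by
  have hc := cbd_of_isCB hT
  obtain ⟨-, hL⟩ := rhoB_isL hT
  have hmem := mem_span_unitary (M := M) a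
  induction hmem using Submodule.span_induction with
  | mem u hu =>
    obtain ⟨hu1, hu2⟩ := Unitary.mem_iff.1 hu
    have h1 := WW_spec M T K hc u u hu1 hu2
    intro ξ η
    have h2 := (h1 ξ η).add ((hL.mul_right u) ξ η)
    rw [zero_add] at h2
    refine h2.congr fun b => ?_
    rw [hu2, ← inner_add_right, ← act_add, sub_add_cancel]
  | zero => simpa using IsL.const (0 : M.toStarSubalgebra)
  | add x y _ _ hx hy =>
    have := hx.add hy
    simpa only [← map_add, ← mul_add] using this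
  | smul c x _ hx =>
    have := hx.smul c
    simpa only [← map_smul, ← mul_smul_comm] using this

end B

open B in
/-- **Block B**: the averaging functional on any scale of completely bounded maps. -/
theorem rho_of_le_cb (M : VonNeumannAlgebra H) (E : Scale M)
    (hE : ∀ {K : ℝ} {T : En M}, E.mem K T → IsCB K T) : ∃ ρ : En M → Al M, IsRho E 1 1 ρ := by
  refine ⟨rhoB, ?_⟩
  refine ⟨zero_le_one, ?_, ?_, ?_, ?_, ?_, ?_⟩
  · intro K T hT
    rw [one_mul]
    exact (rhoB_isL (hE hT)).1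
  · intro K K' T T' hT hT'
    refine rhoB_eq ?_
    have h := (rhoB_isL (hE hT)).2.add (rhoB_isL (hE hT')).2
    have h1 : ∀ b : Col M, av b ((T + T' : En M) : M.toStarSubalgebra →ₗ[ℂ] M.toStarSubalgebra) 1
        = av b (T : M.toStarSubalgebra →ₗ[ℂ] M.toStarSubalgebra) 1
          + av b (T' : M.toStarSubalgebra →ₗ[ℂ] M.toStarSubalgebra) 1 := by
      intro b
      simp only [av_apply, ← Finset.sum_add_distrib, ← add_mul]
      rfl
    simpa only [h1] using h
  · intro c K T hT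
    refine rhoB_eq ?_
    have h := (rhoB_isL (hE hT)).2.smul c
    have h1 : ∀ b : Col M, av b ((c • T : En M) : M.toStarSubalgebra →ₗ[ℂ] M.toStarSubalgebra) 1
        = c • av b (T : M.toStarSubalgebra →ₗ[ℂ] M.toStarSubalgebra) 1 := by
      intro b
      simp only [av_apply, Finset.smul_sum, ← smul_mul_assoc]
      rfl
    simpa only [h1] using h
  · intro a K T hT
    refine rhoB_eq ?_
    have h := (rhoB_isL (hE hT)).2.mul_left a
    have h1 : ∀ b : Col M,
        av b ((Lm a ∘L T : En M) : M.toStarSubalgebra →ₗ[ℂ] M.toStarSubalgebra) 1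
        = a * av b (T : M.toStarSubalgebra →ₗ[ℂ] M.toStarSubalgebra) 1 := by
      intro b
      simp only [av_apply, Finset.mul_sum, ← mul_assoc]
      rfl
    simpa only [h1] using h
  · intro a K T hT
    refine rhoB_eq ?_
    have h := isL_apply (hE hT) a
    have h1 : ∀ b : Col M,
        av b ((T ∘L Lm a : En M) : M.toStarSubalgebra →ₗ[ℂ] M.toStarSubalgebra) 1
        = av b (T : M.toStarSubalgebra →ₗ[ℂ] M.toStarSubalgebra) a := by
      intro b
      simp only [av_apply, one_mul]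
      rfl
    simpa only [h1] using h
  · intro d
    rw [mul_one]
    refine rhoB_eq ?_
    have h1 : ∀ b : Col M,
        av b ((Lm d : En M) : M.toStarSubalgebra →ₗ[ℂ] M.toStarSubalgebra) 1 = d := by
      intro b
      have h2 : av b ((Lm d : En M) : M.toStarSubalgebra →ₗ[ℂ] M.toStarSubalgebra) 1
          = ∑ i, d * (star (b.c i) * b.c i) := by
        simp only [av_apply, one_mul, ← mul_assoc]
        rfl
      rw [h2, ← Finset.mul_sum, b.sum_eq, mul_one]
    simpa only [h1] using IsL.const d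

/-- **(B)** the averaging functional on completely bounded maps. -/
theorem rho_cb (M : VonNeumannAlgebra H) : ∃ ρ : En M → Al M, IsRho (cbS M) 1 1 ρ :=
  rho_of_le_cb M (cbS M) (fun h => h)

end

end Crest.Agent.R121
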