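import Mathlib
import Crest.Agent.R121.AvgOp
import Crest.Agent.R121.CornerP
import Crest.Agent.R121.Defs

-- ▼ part R121/CornerRho
section

/-!
# Row 121: from right modularity on a corner to the operator `ρ : End(M) → M`

`corner_rho`: a family `Φ_T : Me → M` (linear in `T`, bounded by `C ‖T‖`, `Φ_{bT} = b Φ_T`,
`Φ_{T(b·)}(y) = Φ_T(b y)`, `Φ_{d·}(y) = d y`), which is right `eMe`-modular, is of the form
`Φ_T(y) = ρ(T) y` with `ρ` linear, `‖ρ(T)‖ ≤ C ‖T‖`, `ρ(bT) = b ρ(T)`, `ρ(T(b·)) = ρ(T) b`,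
`ρ(d·) = d c(e)`.
-/

set_option autoImplicit false
set_option linter.unusedSectionVars false

namespace Crest.Agent.R121

open scoped InnerProductSpace Topology
open ContinuousLinearMap Filter Crest.Agent.R124

noncomputable section

universe u

variable {H : Type u} [NormedAddCommGroup H] [InnerProductSpace ℂ H] [CompleteSpace H]
variable {M : VonNeumannAlgebra H}

/-- central support, as an element of `M` -/
def csuppA (M : VonNeumannAlgebra H) (e : M.toStarSubalgebra) : M.toStarSubalgebra :=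
  ⟨csupp M (e : H →L[ℂ] H), csupp_mem M _ e.2⟩

@[simp] lemma coe_csuppA (e : M.toStarSubalgebra) :
    ((csuppA M e : M.toStarSubalgebra) : H →L[ℂ] H) = csupp M (e : H →L[ℂ] H) := rfl

lemma csuppA_comm (e x : M.toStarSubalgebra) : csuppA M e * x = x * csuppA M e :=
  Subtype.ext (csupp_comm M _ e.2 _ (Or.inl x.2))

lemma csuppA_star (e : M.toStarSubalgebra) : star (csuppA M e) = csuppA M e :=
  Subtype.ext (csupp_proj M _).isSelfAdjoint

lemma csuppA_mul_csuppA (e : M.toStarSubalgebra) : csuppA M e * csuppA M e = csuppA M e :=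
  Subtype.ext (csupp_proj M _).isIdempotentElem

lemma csuppA_mul_self (e : M.toStarSubalgebra) : csuppA M e * e = e :=
  Subtype.ext (csupp_mul_self M _)

/-- Corner lemma, for families of maps. -/
theorem corner_rho {e : M.toStarSubalgebra} (he : star e = e) (hee : e * e = e) {C : ℝ}
    (hC : 0 ≤ C) (Φ : EndA M → M.toStarSubalgebra → M.toStarSubalgebra)
    (add_right : ∀ T x y, x * e = x → y * e = y → Φ T (x + y) = Φ T x + Φ T y)
    (add_left : ∀ T T' y, y * e = y → Φ (T + T') y = Φ T y + Φ T' y)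
    (smul_left : ∀ (c : ℂ) T y, y * e = y → Φ (c • T) y = c • Φ T y)
    (bd : ∀ T y, y * e = y → ‖Φ T y‖ ≤ C * ‖T‖ * ‖y‖)
    (left : ∀ b T y, y * e = y → Φ (Lm b ∘L T) y = b * Φ T y)
    (pre : ∀ b T y, y * e = y → Φ (T ∘L Lm b) y = Φ T (b * y))
    (base : ∀ d y, y * e = y → Φ (Lm d) y = d * y)
    (mod : ∀ T y a, y * e = y → e * a * e = a → Φ T (y * a) = Φ T y * a) :
    ∃ ρ : EndA M →ₗ[ℂ] M.toStarSubalgebra, (∀ T, ‖ρ T‖ ≤ C * ‖T‖) ∧
      (∀ b T, ρ (Lm b ∘L T) = b * ρ T) ∧ (∀ b T, ρ (T ∘L Lm b) = ρ T * b) ∧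
      (∀ d, ρ (Lm d) = d * csuppA M e) ∧ (∀ T y, y * e = y → Φ T y = ρ T * y) ∧
      (∀ T, ρ T * csuppA M e = ρ T) := by
  classical
  have heP : IsStarProjection (e : H →L[ℂ] H) :=
    ⟨congrArg Subtype.val hee, congrArg Subtype.val he⟩
  have h0 : ∀ T, CornerMap M (e : H →L[ℂ] H) (C * ‖T‖)
      (fun x => if h : x ∈ M then ((Φ T ⟨x, h⟩ : M.toStarSubalgebra) : H →L[ℂ] H) else 0) := by
    intro T
    refine ⟨heP, e.2, by positivity, ?_, ?_, ?_, ?_⟩
    · intro x hx y hy hxe hye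
      rw [dif_pos hx, dif_pos hy, dif_pos (add_mem hx hy)]
      exact congrArg Subtype.val (add_right T ⟨x, hx⟩ ⟨y, hy⟩ (Subtype.ext hxe) (Subtype.ext hye))
    · intro x hx hxe
      rw [dif_pos hx]
      exact (Φ T ⟨x, hx⟩).2
    · intro x hx hxe a ha hea
      rw [dif_pos hx, dif_pos (mul_mem hx ha)]
      exact congrArg Subtype.val (mod T ⟨x, hx⟩ ⟨a, ha⟩ (Subtype.ext hxe) (Subtype.ext hea))
    · intro x hx hxe
      rw [dif_pos hx]
      exact bd T ⟨x, hx⟩ (Subtype.ext hxe)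
  have h1 : ∀ T, ∃ B : M.toStarSubalgebra, ‖B‖ ≤ C * ‖T‖ ∧
      (∀ y, y * e = y → Φ T y = B * y) ∧ B * csuppA M e = B := by
    intro T
    obtain ⟨B, hB, hBn, hBx, hBc⟩ := (h0 T).exists_mul
    refine ⟨⟨B, hB⟩, hBn, fun y hy => ?_, Subtype.ext hBc⟩
    have := hBx y.1 y.2 (congrArg Subtype.val hy)
    have hy2 : (y : H →L[ℂ] H) ∈ M := y.2
    rw [dif_pos hy2] at this
    exact Subtype.ext this
  choose ρ hρn hρ hρc using h1
  have huniq : ∀ B B' : M.toStarSubalgebra, B * csuppA M e = B → B' * csuppA M e = B' →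
      (∀ y, y * e = y → B * y = B' * y) → B = B' := by
    intro B B' hB hB' h
    refine Subtype.ext (corner_unique M (e : H →L[ℂ] H) (congrArg Subtype.val hB)
      (congrArg Subtype.val hB') fun x hx => ?_)
    have := h (⟨x, hx⟩ * e) (by rw [mul_assoc, hee])
    exact congrArg Subtype.val this
  refine ⟨{ toFun := ρ, map_add' := ?_, map_smul' := ?_ }, hρn, ?_, ?_, ?_, hρ, hρc⟩
  · intro T T'
    refine huniq _ _ (hρc _) (by rw [add_mul, hρc, hρc]) fun y hy => ?_
    rw [← hρ _ y hy, add_left T T' y hy, hρ _ y hy, hρ _ y hy, add_mul]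
  · intro c T
    refine huniq _ _ (hρc _) (by rw [RingHom.id_apply, smul_mul_assoc, hρc]) fun y hy => ?_
    rw [← hρ _ y hy, smul_left c T y hy, hρ _ y hy, RingHom.id_apply, smul_mul_assoc]
  · intro b T
    change ρ _ = b * ρ T
    refine huniq _ _ (hρc _) (by rw [mul_assoc, hρc]) fun y hy => ?_
    rw [← hρ _ y hy, left b T y hy, hρ _ y hy, mul_assoc]
  · intro b T
    change ρ _ = ρ T * b
    refine huniq _ _ (hρc _) (by rw [mul_assoc, ← csuppA_comm, ← mul_assoc, hρc]) fun y hy => ?_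
    rw [← hρ _ y hy, pre b T y hy, hρ T (b * y) (by rw [mul_assoc, hy]), mul_assoc]
  · intro d
    change ρ _ = d * csuppA M e
    refine huniq _ _ (hρc _) (by rw [mul_assoc, csuppA_mul_csuppA]) fun y hy => ?_
    have h2 : csuppA M e * y = y := by
      rw [← hy, ← mul_assoc, csuppA_comm, mul_assoc, csuppA_mul_self]
    rw [← hρ _ y hy, base d y hy, mul_assoc, h2]

/-- Corner lemma, for averaging operators which become right modular on the corner. -/
theorem IsAvg.corner_rho {Λ : EndA M →ₗ[ℂ] EndA M} (h : IsAvg Λ) {e : M.toStarSubalgebra}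
    (he : star e = e) (hee : e * e = e)
    (mod : ∀ T y a, y * e = y → e * a * e = a → Λ T (y * a) = Λ T y * a) :
    ∃ ρ : EndA M →ₗ[ℂ] M.toStarSubalgebra, (∀ T, ‖ρ T‖ ≤ ‖T‖) ∧
      (∀ b T, ρ (Lm b ∘L T) = b * ρ T) ∧ (∀ b T, ρ (T ∘L Lm b) = ρ T * b) ∧
      (∀ d, ρ (Lm d) = d * csuppA M e) ∧ (∀ T y, y * e = y → Λ T y = ρ T * y) ∧
      (∀ T, ρ T * csuppA M e = ρ T) := by
  obtain ⟨ρ, h1, h2, h3, h4, h5, h6⟩ := R121.corner_rho he hee zero_le_one (fun T y => Λ T y)
    (fun T x y _ _ => map_add _ _ _) (fun T T' y _ => by rw [map_add]; rfl)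
    (fun c T y _ => by rw [map_smul]; rfl)
    (fun T y _ => by rw [one_mul]; exact (Λ T).le_of_opNorm_le (h.norm T) y)
    (fun b T y _ => by rw [h.left]; rfl) (fun b T y _ => by rw [h.right]; rfl)
    (fun d y _ => by rw [h.unit]; rfl) mod
  exact ⟨ρ, fun T => by simpa using h1 T, h2, h3, h4, h5, h6⟩

end

end Crest.Agent.R121
end

-- ▼ part R121/Corner

/-!
# Row 121: Corner (frozen interface form of Lemma P)
-/

set_option autoImplicit false
set_option linter.unusedSectionVars false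

namespace Crest.Agent.R121

open scoped InnerProductSpace Topology
open ContinuousLinearMap Filter Crest.Agent.R124

noncomputable section

variable {H : Type*} [NormedAddCommGroup H] [InnerProductSpace ℂ H] [CompleteSpace H]
variable {M : VonNeumannAlgebra H}

lemma spanP_eq (e : Al M) : (spanP M (e : H →L[ℂ] H)) =
    (Submodule.span ℂ {w : H | ∃ x : Al M, ∃ η : H,
      w = (x : H →L[ℂ] H) ((e : H →L[ℂ] H) η)} : Submodule ℂ H) := by
  unfold spanP
  congr 1
  ext w
  constructor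
  · rintro ⟨x, hx, t, rfl⟩
    exact ⟨⟨x, hx⟩, t, rfl⟩
  · rintro ⟨x, t, rfl⟩
    exact ⟨x, x.2, t, rfl⟩

lemma mul_csupp_of_mul (e : Al M) {z : Al M} (hzc : ∀ x : Al M, z * x = x * z) (hze : z * e = e) :
    z * csuppA M e = csuppA M e := by
  apply Subtype.ext
  ext w
  change (z : H →L[ℂ] H) (csupp M (e : H →L[ℂ] H) w) = csupp M (e : H →L[ℂ] H) w
  have h0 := csupp_apply_mem M (e : H →L[ℂ] H) w
  have hclo : IsClosed {y : H | (z : H →L[ℂ] H) y = y} := isClosed_eq (by fun_prop) (by fun_prop)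
  refine closure_minimal ?_ hclo h0
  intro y hy
  refine Submodule.span_induction (p := fun y _ => (z : H →L[ℂ] H) y = y) ?_ ?_ ?_ ?_ hy
  · rintro _ ⟨x, hx, t, rfl⟩
    have h1 : z * ((⟨x, hx⟩ : Al M) * e) = (⟨x, hx⟩ : Al M) * e := by
      rw [← mul_assoc, hzc, mul_assoc, hze]
    exact congrArg (fun A : Al M => (A : H →L[ℂ] H) t) h1
  · simp
  · intro a b _ _ ha hb
    simp only [map_add, ha, hb]
  · intro c a _ ha
    simp only [map_smul, ha]

lemma IsCS.eq_csupp {e z : Al M} (h : IsCS e z) : z = csuppA M e := by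
  obtain ⟨⟨hz, hzc⟩, hze, hcl⟩ := h
  have h1 : z * csuppA M e = csuppA M e := mul_csupp_of_mul e hzc hze
  have h2 : csuppA M e * z = z := by
    apply Subtype.ext
    ext w
    change csupp M (e : H →L[ℂ] H) ((z : H →L[ℂ] H) w) = (z : H →L[ℂ] H) w
    rw [csupp_eq_self_iff]
    have := hcl w
    rw [← spanP_eq] at this
    exact this
  rw [← h2, csuppA_comm, h1]

lemma isCS_csuppA {e : Al M} : IsCS e (csuppA M e) := by
  refine ⟨⟨⟨csuppA_mul_csuppA e, csuppA_star e⟩, csuppA_comm e⟩, csuppA_mul_self e, fun ξ => ?_⟩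
  rw [← spanP_eq]
  exact csupp_apply_mem M (e : H →L[ℂ] H) ξ

/-- **Lemma P**, frozen interface form. -/
theorem rho_of_cavg {e q : Al M} (he : IsStarProjection e) (hq : IsCS e q)
    {S : En M → Al M → Al M} (hS : IsCAvg e S) : ∃ ρ : En M → Al M, IsRho (bdS M) q 1 ρ := by
  have hes : star e = e := he.isSelfAdjoint
  have hee : e * e = e := he.isIdempotentElem
  obtain ⟨ρ, h1, h2, h3, h4, -, h6⟩ := corner_rho (M := M) hes hee zero_le_one S
    (fun T x y hx hy => hS.add T x y hx hy) (fun T T' y hy => hS.addT T T' y hy)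
    (fun c T y hy => hS.smulT c T y hy) (fun T y hy => by rw [one_mul]; exact hS.bound T y hy)
    (fun b T y hy => hS.lmul b T y hy) (fun b T y hy => hS.comp b T y hy)
    (fun d y hy => hS.mul d y hy) (fun T y a hy hea => by
      have e1 : e * (e * a * e) = e * a * e := by rw [← mul_assoc, ← mul_assoc, hee]
      have e2 : e * a * e * e = e * a * e := by rw [mul_assoc, hee]
      rw [hea] at e1 e2
      exact hS.right T y a hy e1 e2)
  refine ⟨fun T => ρ T, zero_le_one, ?_, fun _ _ => map_add ρ _ _, fun c _ _ _ => map_smul ρ c _,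
    fun a K T _ => h2 a T, fun a K T _ => h3 a T, fun d => by rw [h4, hq.eq_csupp]⟩
  intro K T hT
  rw [one_mul] at *
  exact (by simpa using h1 T : ‖ρ T‖ ≤ ‖T‖).trans hT


end

end Crest.Agent.R121
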