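import Crest.Agent.R121.Sum
import Crest.Agent.R121.Defs
import Crest.Agent.R121.Dich
import Crest.Agent.R121.TypeI
import Crest.Agent.R121.CB
import Mathlib
import Crest.Agent.R121.Fin.Asm
import Crest.Agent.R121.Corner
import Crest.Agent.R121.Units

-- ▼ part R121/SumG
section

/-!
# Row 121: strong sums of local solutions (interface form)
-/

set_option autoImplicit false

namespace Crest.Agent.R121

open scoped InnerProductSpace

variable {H : Type*} [NormedAddCommGroup H] [InnerProductSpace ℂ H] [CompleteSpace H]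
variable {M : VonNeumannAlgebra H}

theorem good_sum {k : ℕ} {C : ℝ} (hC : 0 ≤ C)
    (h : ∀ p : Al M, IsCP M p → p ≠ 0 → ∃ z : Al M, IsCP M z ∧ z ≠ 0 ∧ z * p = z ∧ Good M k C z) :
    Good M k C 1 := by
  intro f hf
  have hR : 0 ≤ C * ‖f‖ := mul_nonneg hC (norm_nonneg _)
  obtain ⟨g, hg, hg'⟩ := sum_of_local' M k f (C * ‖f‖) (by
    intro z hz0 hzs hzz hzc
    obtain ⟨c, hc, hc0, hcz, hgood⟩ := h z ⟨⟨hzz, hzs⟩, hzc⟩ hz0
    obtain ⟨g, hg, hg'⟩ := hgood f hf
    refine ⟨c, hc0, hc.proj.isSelfAdjoint, hc.proj.isIdempotentElem, hc.comm, ?_, g, hg, ?_⟩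
    · rw [hzc, hcz]
    · intro a
      rw [hg', hc.comm])
  rw [max_eq_left hR] at hg
  exact ⟨g, hg, fun a => by rw [hg', mul_one]⟩

end Crest.Agent.R121
end

-- ▼ part R121/DichG
section

/-!
# Row 121: the dichotomy (interface form)
-/

set_option autoImplicit false

namespace Crest.Agent.R121

open scoped InnerProductSpace

variable {H : Type*} [NormedAddCommGroup H] [InnerProductSpace ℂ H] [CompleteSpace H]

lemma orth_of_add {P Q : H →L[ℂ] H} (hPP : P * P = P) (hQQ : Q * Q = Q)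
    (h : (P + Q) * (P + Q) = P + Q) : P * Q = 0 := by
  have h1 : P * Q + Q * P = 0 := by
    have h3 : (P + Q) * (P + Q) = (P * P + Q * Q) + (P * Q + Q * P) := by noncomm_ring
    rw [h3, hPP, hQQ, add_eq_left] at h
    exact h
  have h4 : P * Q = -(Q * P) := eq_neg_of_add_eq_zero_left h1
  have h5 : P * Q = Q * P := by
    calc P * Q = (P * P) * Q := by rw [hPP]
      _ = P * (P * Q) := mul_assoc _ _ _
      _ = P * (-(Q * P)) := by rw [h4]
      _ = -(P * Q * P) := by rw [mul_neg, mul_assoc]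
      _ = -(-(Q * P) * P) := by rw [h4]
      _ = Q * (P * P) := by rw [neg_mul, neg_neg, mul_assoc]
      _ = Q * P := by rw [hPP]
  have h7 : (2 : ℂ) • (P * Q) = 0 := by
    rw [two_smul]
    nth_rewrite 2 [h5]
    exact h1
  exact (smul_eq_zero.1 h7).resolve_left two_ne_zero

lemma pi_of_proj {s c : H →L[ℂ] H} (h : star s * s = c) (hc : c * c = c) : s * c = s := by
  have hcs : star c = c := by rw [← h, star_mul, star_star]
  have h1 : star (s * c - s) * (s * c - s) = 0 := by
    rw [star_sub, star_mul, hcs]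
    calc (c * star s - star s) * (s * c - s)
        = c * (star s * s) * c - c * (star s * s) - (star s * s) * c + star s * s := by
          noncomm_ring
      _ = 0 := by rw [h, hc, hc]; abel
  have h2 := (CStarRing.star_mul_self_eq_zero_iff (s * c - s)).1 h1
  exact sub_eq_zero.1 h2

lemma star_mul_eq_zero_of_add {s t c : H →L[ℂ] H} (hs : star s * s = c) (ht : star t * t = c)
    (hc : c * c = c) (h : s * star s + t * star t = c) : star s * t = 0 := by
  have hcs : star c = c := by rw [← hs, star_mul, star_star]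
  have hsc := pi_of_proj hs hc
  have htc := pi_of_proj ht hc
  have hcss : c * star s = star s := by
    have := congrArg star hsc
    rwa [star_mul, hcs] at this
  have hPP : s * star s * (s * star s) = s * star s := by
    calc s * star s * (s * star s) = s * (star s * s) * star s := by noncomm_ring
      _ = s * star s := by rw [hs, hsc]
  have hQQ : t * star t * (t * star t) = t * star t := by
    calc t * star t * (t * star t) = t * (star t * t) * star t := by noncomm_ring
      _ = t * star t := by rw [ht, htc]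
  have h6 := orth_of_add hPP hQQ (h ▸ hc)
  calc star s * t = (c * star s) * (t * c) := by rw [hcss, htc]
    _ = star s * (s * star s * (t * star t)) * t := by
        nth_rewrite 1 [← hs]
        nth_rewrite 1 [← ht]
        noncomm_ring
    _ = 0 := by rw [h6]; simp

variable {M : VonNeumannAlgebra H}

/-- exact halving gives `IsPI` -/
theorem isPI_of_PIc {c : Al M} (hc : c * c = c) (h : PIc M (c : H →L[ℂ] H)) : IsPI c := by
  obtain ⟨s, hsM, t, htM, hs, ht, hst⟩ := h
  exact ⟨⟨s, hsM⟩, ⟨t, htM⟩, Subtype.ext hs, Subtype.ext ht, Subtype.ext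
    (star_mul_eq_zero_of_add hs ht (congrArg Subtype.val hc) hst)⟩


end Crest.Agent.R121
end

-- ▼ part R121/Glue
section

/-!
# Row 121: final glue
-/

set_option autoImplicit false

namespace Crest.Agent.R121

open scoped InnerProductSpace
open Crest.Agent.R124

variable {H : Type*} [NormedAddCommGroup H] [InnerProductSpace ℂ H] [CompleteSpace H]
variable {M : VonNeumannAlgebra H}

/-- a linear contraction with the covariance properties is an `IsRho` on all bounded maps. -/
lemma isRho_of_linear {z : Al M} (ρ : EndA M →ₗ[ℂ] M.toStarSubalgebra) (h1 : ∀ T, ‖ρ T‖ ≤ ‖T‖)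
    (h2 : ∀ b T, ρ (Lm b ∘L T) = b * ρ T) (h3 : ∀ b T, ρ (T ∘L Lm b) = ρ T * b)
    (h4 : ∀ d, ρ (Lm d) = d * z) : IsRho (bdS M) z 1 (fun T => ρ T) where
  nonneg := zero_le_one
  bound {K T} hT := by rw [one_mul]; exact (h1 T).trans hT
  add _ _ := map_add _ _ _
  smul c _ _ _ := map_smul _ c _
  lmul a _ T _ := h2 a T
  comp a _ T _ := h3 a T
  mul d := h4 d

theorem rho_abel {e : H →L[ℂ] H} (heM : e ∈ M) (he : IsStarProjection e)
    (hab : ∀ x ∈ M, ∀ y ∈ M, (e * x * e) * (e * y * e) = (e * y * e) * (e * x * e)) :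
    ∃ ρ : En M → Al M, IsRho (bdS M) ⟨csupp M e, csupp_mem M e heM⟩ 1 ρ := by
  obtain ⟨ρ, h1, h2, h3, h4, -⟩ := typeI_rho (M := M) (e := ⟨e, heM⟩)
    (Subtype.ext he.isSelfAdjoint) (Subtype.ext he.isIdempotentElem)
    (fun x y => Subtype.ext (hab x x.2 y y.2))
  exact ⟨_, isRho_of_linear ρ h1 h2 h3 h4⟩

lemma csupp_le {p e : H →L[ℂ] H} (hp : ∀ x ∈ M, p * x = x * p) (hpe : p * e = e) :
    p * csupp M e = csupp M e := by
  ext t
  have h0 : ∀ x, x ∈ spanP M e → p x = x := by
    intro x hx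
    induction hx using Submodule.span_induction with
    | mem x hx =>
      obtain ⟨T, hT, s, rfl⟩ := hx
      have h1 : p * (T * e) = T * e := by rw [← mul_assoc, hp T hT, mul_assoc, hpe]
      exact congrArg (fun X : H →L[ℂ] H => X s) h1
    | zero => exact map_zero _
    | add x y _ _ hx hy => rw [map_add, hx, hy]
    | smul c x _ hx => rw [map_smul, hx]
  have hcl : IsClosed {x : H | p x = x} := isClosed_eq p.continuous continuous_id
  have hsub : ((spanP M e).topologicalClosure : Set H) ⊆ {x | p x = x} :=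
    closure_minimal (fun x hx => h0 x hx) hcl
  exact hsub (csupp_apply_mem M e t)

lemma Glue.hochschildDiff_add {A : Type*} [Ring A] {k : ℕ} (f g : (Fin k → A) → A)
    (a : Fin (k + 1) → A) : Crest.OpAlg.hochschildDiff (fun b => f b + g b) a
      = Crest.OpAlg.hochschildDiff f a + Crest.OpAlg.hochschildDiff g a := by
  unfold Crest.OpAlg.hochschildDiff
  simp only [mul_add, add_mul, smul_add, Finset.sum_add_distrib]
  abel

/-- The main theorem, modulo the inputs C1 (`Cochain`), PI and FIN. -/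
theorem glue (M : VonNeumannAlgebra H) (k : ℕ)
    (hcob : ∀ (E : Scale M) (z : Al M), (∀ x, z * x = x * z) → ∀ (C : ℝ) (ρ : En M → Al M),
      IsRho E z C ρ → ∀ (f : Coch M (k + 1)), IsCocycle f → ∀ (K : ℝ), 0 ≤ K →
      (∀ a : Fin k → Al M, E.mem (K * ∏ i, ‖a i‖) (f.curryRight a)) →
      ∃ g : Coch M k, ‖g‖ ≤ C * K ∧
        ∀ a : Fin (k + 1) → Al M, Crest.OpAlg.hochschildDiff g a = f a * z)
    (hpi : ∃ Ck : ℝ, 0 ≤ Ck ∧ ∀ z : Al M, IsCP M z → IsPI z → ∀ f : Coch M (k + 1), IsCocycle f →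
      ∃ (g : Coch M k) (ψ : Coch M (k + 1)), ‖g‖ ≤ Ck * ‖f‖ ∧
      IsCocycle ψ ∧ (∀ x, f x * z = Crest.OpAlg.hochschildDiff g x + ψ x) ∧
      ∀ a : Fin k → Al M, IsCB (Ck * ‖f‖ * ∏ i, ‖a i‖) (ψ.curryRight a))
    (hfin : ∀ (f : H →L[ℂ] H) (hfM : f ∈ M), IsStarProjection f → ∀ (ξ : H) (C : ℝ),
      CTr M f ξ C →
      (∀ e ∈ M, IsStarProjection e → f * e = e →
        (∀ x ∈ M, ∀ y ∈ M, (e * x * e) * (e * y * e) = (e * y * e) * (e * x * e)) → e = 0) →
      ∃ ρ : En M → Al M, IsRho (bdS M) ⟨csupp M f, csupp_mem M f hfM⟩ 1 ρ) :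
    ∃ C : ℝ, Good M k C 1 := by
  obtain ⟨Ck, hCk, hpi⟩ := hpi
  -- from `ρ` to `Good`
  have hgood : ∀ (z : Al M), (∀ x, z * x = x * z) → ∀ ρ : En M → Al M,
      IsRho (bdS M) z 1 ρ → Good M k (2 * Ck + 1) z := by
    intro z hz ρ hρ f hf
    obtain ⟨g, hg, hg'⟩ := hcob (bdS M) z hz 1 ρ hρ f hf ‖f‖ (norm_nonneg _) (fun a => by
      change ‖f.curryRight a‖ ≤ ‖f‖ * ∏ i, ‖a i‖
      refine (f.curryRight.le_opNorm a).trans ?_
      rw [ContinuousMultilinearMap.curryRight_norm])
    refine ⟨g, hg.trans ?_, hg'⟩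
    have := norm_nonneg f
    nlinarith
  refine ⟨2 * Ck + 1, good_sum (by positivity) fun p hp hp0 => ?_⟩
  have hpc : ∀ x ∈ M, (p : H →L[ℂ] H) * x = x * p := fun x hx =>
    congrArg Subtype.val (hp.comm ⟨x, hx⟩)
  -- pieces with `ρ`
  have hpiece : ∀ (e : H →L[ℂ] H) (heM : e ∈ M), e ≠ 0 → (p : H →L[ℂ] H) * e = e →
      (∃ ρ : En M → Al M, IsRho (bdS M) ⟨csupp M e, csupp_mem M e heM⟩ 1 ρ) →
      ∃ z : Al M, IsCP M z ∧ z ≠ 0 ∧ z * p = z ∧ Good M k (2 * Ck + 1) z := by
    rintro e heM he0 hpe ⟨ρ, hρ⟩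
    have hcomm : ∀ x ∈ M, csupp M e * x = x * csupp M e := fun x hx =>
      csupp_comm M e heM x (Or.inl hx)
    refine ⟨⟨csupp M e, csupp_mem M e heM⟩, ⟨⟨Subtype.ext (csupp_proj M e).isIdempotentElem,
      Subtype.ext (csupp_proj M e).isSelfAdjoint⟩, fun x => Subtype.ext (hcomm x x.2)⟩, ?_,
      Subtype.ext ?_, hgood _ (fun x => Subtype.ext (hcomm x x.2)) ρ hρ⟩
    · intro h0
      have h1 : csupp M e = 0 := congrArg Subtype.val h0
      have h2 := csupp_mul_self M e
      rw [h1, zero_mul] at h2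
      exact he0 h2.symm
    · change csupp M e * (p : H →L[ℂ] H) = csupp M e
      rw [hcomm p p.2]
      exact csupp_le hpc hpe
  rcases dichotomy M p.2 ⟨congrArg Subtype.val hp.proj.isIdempotentElem,
    congrArg Subtype.val hp.proj.isSelfAdjoint⟩ hpc (fun h => hp0 (Subtype.ext h)) with
    ⟨f, hfM, hf, hf0, hpf, ξ, C, htr⟩ | ⟨c, hcM, hc, hcc, hc0, hpc', hPI⟩
  · by_cases hab : ∀ e ∈ M, IsStarProjection e → f * e = e →
        (∀ x ∈ M, ∀ y ∈ M, (e * x * e) * (e * y * e) = (e * y * e) * (e * x * e)) → e = 0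
    · exact hpiece f hfM hf0 hpf (hfin f hfM hf ξ C htr hab)
    · push Not at hab
      obtain ⟨e, heM, he, hfe, heab, he0⟩ := hab
      refine hpiece e heM he0 ?_ (rho_abel heM he heab)
      rw [← hfe, ← mul_assoc, hpf]
  · refine ⟨⟨c, hcM⟩, ⟨⟨Subtype.ext hc.isIdempotentElem, Subtype.ext hc.isSelfAdjoint⟩,
      fun x => Subtype.ext (hcc x x.2)⟩, fun h => hc0 (congrArg Subtype.val h),
      Subtype.ext ?_, ?_⟩
    · change c * (p : H →L[ℂ] H) = c
      rw [hcc p p.2, hpc']
    · intro f hf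
      have hcP : IsCP M (⟨c, hcM⟩ : Al M) := ⟨⟨Subtype.ext hc.isIdempotentElem,
        Subtype.ext hc.isSelfAdjoint⟩, fun x => Subtype.ext (hcc x x.2)⟩
      obtain ⟨g, ψ, hg, hψ, hfg, hcb⟩ := hpi ⟨c, hcM⟩ hcP (isPI_of_PIc
        (Subtype.ext hc.isIdempotentElem) hPI) f hf
      obtain ⟨ρ, hρ⟩ := rho_cb M
      obtain ⟨g', hg', hgd⟩ := hcob (cbS M) 1 (fun x => by rw [one_mul, mul_one]) 1 ρ hρ ψ hψ
        (Ck * ‖f‖) (mul_nonneg hCk (norm_nonneg _)) hcb
      refine ⟨g + g', ?_, fun a => ?_⟩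
      · refine (norm_add_le _ _).trans ?_
        have := norm_nonneg f
        nlinarith
      · rw [hfg]
        have h1 : Crest.OpAlg.hochschildDiff (⇑(g + g')) a
            = Crest.OpAlg.hochschildDiff g a + Crest.OpAlg.hochschildDiff g' a :=
          Glue.hochschildDiff_add _ _ _
        rw [h1, hgd, mul_one]

end Crest.Agent.R121
end

-- ▼ part R121/Cochain
section

set_option autoImplicit false
set_option linter.unusedSectionVars false

open scoped InnerProductSpace

namespace Crest.Agent.R121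

open Crest.OpAlg


section args

variable {A : Type*} [Mul A]

theorem mergeArgs_snoc_castSucc {k : ℕ} (j : Fin k) (a : Fin (k + 1) → A) (x : A) :
    mergeArgs j.castSucc (Fin.snoc a x : Fin (k + 2) → A) = Fin.snoc (mergeArgs j a) x := by
  funext i
  refine Fin.lastCases ?_ (fun i => ?_) i
  · have h1 : ¬ ((Fin.last k).val < j.castSucc.val) := by
      simp only [Fin.val_last, Fin.val_castSucc]; omega
    have h2 : ¬ ((Fin.last k).val = j.castSucc.val) := by
      simp only [Fin.val_last, Fin.val_castSucc]; omega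
    simp only [mergeArgs, h1, h2, if_false, Fin.snoc_last, Fin.succ_last]
  · simp only [mergeArgs, Fin.val_castSucc, Fin.snoc_castSucc, Fin.succ_castSucc]

theorem mergeArgs_snoc_last {k : ℕ} (a : Fin (k + 1) → A) (x : A) :
    mergeArgs (Fin.last k) (Fin.snoc a x : Fin (k + 2) → A)
      = Fin.snoc (fun i : Fin k => a i.castSucc) (a (Fin.last k) * x) := by
  funext i
  refine Fin.lastCases ?_ (fun i => ?_) i
  · simp only [mergeArgs, Fin.snoc_castSucc, Fin.snoc_last, Fin.succ_last, lt_irrefl, if_false,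
      if_true]
  · have h1 : (i.castSucc).val < (Fin.last k).val := by
      simp only [Fin.val_last, Fin.val_castSucc]; omega
    simp only [mergeArgs, h1, if_true, Fin.snoc_castSucc]

theorem snoc_succ {k : ℕ} (a : Fin (k + 1) → A) (x : A) :
    (fun i : Fin (k + 1) => (Fin.snoc a x : Fin (k + 2) → A) i.succ)
      = Fin.snoc (fun i : Fin k => a i.succ) x := by
  funext i
  refine Fin.lastCases ?_ (fun i => ?_) i
  · simp only [Fin.snoc_last, Fin.succ_last]
  · simp only [Fin.succ_castSucc, Fin.snoc_castSucc]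

end args

section gen

variable (A : Type*) [NormedRing A] [NormedAlgebra ℂ A]

/-- general version of `Scale` -/
structure GScale where
  mem : ℝ → (A →L[ℂ] A) → Prop
  zero : mem 0 0
  add : ∀ {K K' T T'}, mem K T → mem K' T' → mem (K + K') (T + T')
  smul : ∀ (c : ℂ) {K T}, mem K T → mem (‖c‖ * K) (c • T)
  lmul : ∀ (a : A) {K T}, mem K T → mem (‖a‖ * K) (ContinuousLinearMap.mul ℂ A a ∘L T)
  comp : ∀ (a : A) {K T}, mem K T → mem (K * ‖a‖) (T ∘L ContinuousLinearMap.mul ℂ A a)
  mul : ∀ d : A, mem ‖d‖ (ContinuousLinearMap.mul ℂ A d)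

variable {A}

/-- general version of `IsRho` -/
structure GRho (E : GScale A) (z : A) (C : ℝ) (ρ : (A →L[ℂ] A) → A) : Prop where
  nonneg : 0 ≤ C
  bound : ∀ {K T}, E.mem K T → ‖ρ T‖ ≤ C * K
  add : ∀ {K K' T T'}, E.mem K T → E.mem K' T' → ρ (T + T') = ρ T + ρ T'
  smul : ∀ (c : ℂ) {K T}, E.mem K T → ρ (c • T) = c • ρ T
  lmul : ∀ (a : A) {K T}, E.mem K T → ρ (ContinuousLinearMap.mul ℂ A a ∘L T) = a * ρ T
  comp : ∀ (a : A) {K T}, E.mem K T → ρ (T ∘L ContinuousLinearMap.mul ℂ A a) = ρ T * a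
  mul : ∀ d : A, ρ (ContinuousLinearMap.mul ℂ A d) = d * z

variable {E : GScale A} {z : A} {C : ℝ} {ρ : (A →L[ℂ] A) → A}

theorem zpow_smul_eq (n : ℕ) (V : Type*) [AddCommGroup V] [Module ℂ V] (v : V) :
    ((-1 : ℤ) ^ n) • v = ((-1 : ℂ) ^ n) • v := by
  rcases Nat.even_or_odd n with h | h
  · rw [h.neg_one_pow, h.neg_one_pow, one_smul, one_smul]
  · rw [h.neg_one_pow, h.neg_one_pow, neg_smul, neg_smul, one_smul, one_smul]

theorem GScale.neg_one_pow {K : ℝ} {T : A →L[ℂ] A} (h : E.mem K T) (n : ℕ) :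
    E.mem K (((-1 : ℤ) ^ n) • T) := by
  have h2 := E.smul ((-1 : ℂ) ^ n) h
  rw [zpow_smul_eq]
  have h3 : ‖((-1 : ℂ) ^ n)‖ = 1 := by simp
  rwa [h3, one_mul] at h2

theorem GScale.sum {ι : Type*} (s : Finset ι) (K : ι → ℝ) (T : ι → A →L[ℂ] A)
    (h : ∀ i ∈ s, E.mem (K i) (T i)) : E.mem (∑ i ∈ s, K i) (∑ i ∈ s, T i) := by
  classical
  induction s using Finset.induction_on with
  | empty => simpa using E.zero
  | insert a s ha ih =>
    rw [Finset.sum_insert ha, Finset.sum_insert ha]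
    exact E.add (h a (Finset.mem_insert_self a s))
      (ih fun i hi => h i (Finset.mem_insert_of_mem hi))

theorem GRho.zero (hρ : GRho E z C ρ) : ρ 0 = 0 := by
  have h := hρ.smul 0 E.zero
  have e : (0 : ℂ) • (0 : A →L[ℂ] A) = 0 := by
    ext x
    change (0 : ℂ) • (0 : A) = 0
    rw [smul_zero]
  rw [e, zero_smul] at h
  exact h

theorem GRho.sum (hρ : GRho E z C ρ) {ι : Type*} (s : Finset ι) (K : ι → ℝ)
    (T : ι → A →L[ℂ] A)
    (h : ∀ i ∈ s, E.mem (K i) (T i)) : ρ (∑ i ∈ s, T i) = ∑ i ∈ s, ρ (T i) := by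
  classical
  induction s using Finset.induction_on with
  | empty => simpa using hρ.zero
  | insert a s ha ih =>
    have h' : ∀ i ∈ s, E.mem (K i) (T i) := fun i hi => h i (Finset.mem_insert_of_mem hi)
    rw [Finset.sum_insert ha, Finset.sum_insert ha,
      hρ.add (h a (Finset.mem_insert_self a s)) (GScale.sum s K T h'), ih h']

theorem GRho.neg_one_pow (hρ : GRho E z C ρ) {K : ℝ} {T : A →L[ℂ] A} (h : E.mem K T) (n : ℕ) :
    ρ (((-1 : ℤ) ^ n) • T) = ((-1 : ℤ) ^ n) • ρ T := by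
  rw [zpow_smul_eq, hρ.smul _ h, zpow_smul_eq]

theorem gen_cob_of_rho (hρ : GRho E z C ρ) {k : ℕ}
    (f : ContinuousMultilinearMap ℂ (fun _ : Fin (k + 1) => A) A)
    (hf : ∀ a, hochschildDiff f a = 0) {K : ℝ} (hK : 0 ≤ K)
    (hE : ∀ a : Fin k → A, E.mem (K * ∏ i, ‖a i‖) (f.curryRight a)) :
    ∃ g : ContinuousMultilinearMap ℂ (fun _ : Fin k => A) A, ‖g‖ ≤ C * K ∧
      ∀ a : Fin (k + 1) → A, hochschildDiff g a = f a * z := by
  classical
  -- the multilinear map
  let g0 : MultilinearMap ℂ (fun _ : Fin k => A) (A) :=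
    { toFun := fun a => ((-1 : ℤ) ^ (k + 1)) • ρ (f.curryRight a)
      map_update_add' := by
        intro inst m i x y
        have e : inst = instDecidableEqFin k := Subsingleton.elim _ _
        subst e
        rw [ContinuousMultilinearMap.map_update_add,
          hρ.add (hE (Function.update m i x)) (hE (Function.update m i y)), smul_add]
      map_update_smul' := by
        intro inst m i c x
        have e : inst = instDecidableEqFin k := Subsingleton.elim _ _
        subst e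
        rw [ContinuousMultilinearMap.map_update_smul, hρ.smul _ (hE (Function.update m i x)),
          smul_comm] }
  have hg0 : ∀ a, g0 a = ((-1 : ℤ) ^ (k + 1)) • ρ (f.curryRight a) := fun _ => rfl
  have hbd : ∀ a : Fin k → A, ‖g0 a‖ ≤ C * K * ∏ i, ‖a i‖ := by
    intro a
    rw [hg0, mul_assoc]
    have h1 : ‖((-1 : ℤ) ^ (k + 1)) • ρ (f.curryRight a)‖ = ‖ρ (f.curryRight a)‖ := by
      rcases Nat.even_or_odd (k + 1) with h | h
      · simp [h.neg_one_pow]
      · simp [h.neg_one_pow]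
    rw [h1]
    exact hρ.bound (hE a)
  refine ⟨g0.mkContinuous (C * K) hbd, ?_, ?_⟩
  · exact MultilinearMap.mkContinuous_norm_le _ (mul_nonneg hρ.nonneg hK) _
  · intro a
    -- the identity of operators
    have hop : ContinuousLinearMap.mul ℂ A (a 0) ∘L f.curryRight (fun i : Fin k => a i.succ)
        + ((∑ j : Fin k, ((-1 : ℤ) ^ (j.val + 1)) • f.curryRight (mergeArgs j a))
        + (((-1 : ℤ) ^ (k + 1)) •
          (f.curryRight (fun i : Fin k => a i.castSucc) ∘L ContinuousLinearMap.mul ℂ A (a (Fin.last k)))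
        + ((-1 : ℤ) ^ (k + 2)) • ContinuousLinearMap.mul ℂ A (f a))) = 0 := by
      ext1 x
      have h := hf (Fin.snoc a x)
      rw [hochschildDiff, Fin.sum_univ_castSucc] at h
      simp only [snoc_succ, mergeArgs_snoc_castSucc, mergeArgs_snoc_last, Fin.snoc_castSucc,
        Fin.snoc_last, Fin.val_castSucc, Fin.val_last] at h
      have h0 : (Fin.snoc a x : Fin (k + 2) → A) 0 = a 0 := by
        simp
      rw [h0] at h
      simp only [add_apply, ContinuousLinearMap.comp_apply, sum_apply, ContinuousLinearMap.mul_apply', smul_apply,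
        ContinuousMultilinearMap.curryRight_apply, zero_apply]
      rw [← h]
      abel
    -- apply `ρ`
    have m1' := hE (fun i : Fin k => a i.succ)
    have m1 := E.lmul (a 0) m1'
    have m2' : ∀ j ∈ (Finset.univ : Finset (Fin k)), E.mem (K * ∏ i, ‖mergeArgs j a i‖)
        (((-1 : ℤ) ^ (j.val + 1)) • f.curryRight (mergeArgs j a)) := fun j _ =>
      GScale.neg_one_pow (hE (mergeArgs j a)) _
    have m2 := GScale.sum _ _ _ m2'
    have m3'' := hE (fun i : Fin k => a i.castSucc)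
    have m3' := E.comp (a (Fin.last k)) m3''
    have m3 := GScale.neg_one_pow m3' (k + 1)
    have m4' := E.mul (f a)
    have m4 := GScale.neg_one_pow m4' (k + 2)
    have hρop := congrArg ρ hop
    rw [hρ.zero, hρ.add m1 (E.add m2 (E.add m3 m4)), hρ.add m2 (E.add m3 m4), hρ.add m3 m4,
      hρ.sum _ _ _ m2', hρ.neg_one_pow m3', hρ.neg_one_pow m4', hρ.lmul _ m1',
      hρ.comp _ m3'', hρ.mul] at hρop
    have hs : ∀ j : Fin k, ρ (((-1 : ℤ) ^ (j.val + 1)) • f.curryRight (mergeArgs j a))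
        = ((-1 : ℤ) ^ (j.val + 1)) • ρ (f.curryRight (mergeArgs j a)) := fun j =>
      hρ.neg_one_pow (hE (mergeArgs j a)) _
    simp only [hs] at hρop
    rw [hochschildDiff]
    simp only [MultilinearMap.coe_mkContinuous, hg0]
    -- final bookkeeping
    have e1 : ((-1 : ℤ) ^ (k + 1)) * ((-1 : ℤ) ^ (k + 1)) = 1 := by
      rw [← mul_pow]; simp
    have key := congrArg (fun v => ((-1 : ℤ) ^ (k + 1)) • v) hρop
    simp only [smul_add, smul_zero, Finset.smul_sum, smul_smul] at key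
    have e2 : ((-1 : ℤ) ^ (k + 1)) * ((-1 : ℤ) ^ (k + 2)) = -1 := by
      rw [pow_succ (-1 : ℤ) (k + 1), ← mul_assoc, e1]; norm_num
    rw [e1, e2] at key
    simp only [one_smul, neg_smul] at key
    have t1 : a 0 * ((-1 : ℤ) ^ (k + 1)) • ρ (f.curryRight fun i => a i.succ)
        = ((-1 : ℤ) ^ (k + 1)) • (a 0 * ρ (f.curryRight fun i => a i.succ)) := mul_smul_comm _ _ _
    have t2 : ((-1 : ℤ) ^ (k + 1)) •
        (((-1 : ℤ) ^ (k + 1)) • ρ (f.curryRight fun i => a i.castSucc) * a (Fin.last k))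
        = ρ (f.curryRight fun i => a i.castSucc) * a (Fin.last k) := by
      rw [smul_mul_assoc, smul_smul, e1, one_smul]
    have t3 : ∀ j : Fin k, ((-1 : ℤ) ^ (j.val + 1)) •
        ((-1 : ℤ) ^ (k + 1)) • ρ (f.curryRight (mergeArgs j a))
        = (((-1 : ℤ) ^ (k + 1)) * ((-1 : ℤ) ^ (j.val + 1))) •
          ρ (f.curryRight (mergeArgs j a)) := fun j => by rw [smul_smul, mul_comm]
    rw [t1, t2]
    simp only [t3]
    rw [← sub_eq_zero, ← key]
    abel


end gen

variable {H : Type*} [NormedAddCommGroup H] [InnerProductSpace ℂ H] [CompleteSpace H]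
variable {M : VonNeumannAlgebra H}

/-- the general scale attached to a scale -/
def Scale.gen (E : Scale M) : GScale (Al M) where
  mem K T := E.mem K T
  zero := E.zero
  add := E.add
  smul c _ _ h := E.smul c h
  lmul a _ _ h := E.lmul a h
  comp a _ _ h := E.comp a h
  mul d := E.mul d

theorem IsRho.gen {E : Scale M} {z : Al M} {C : ℝ} {ρ : En M → Al M} (h : IsRho E z C ρ) :
    GRho E.gen z C ρ where
  nonneg := h.nonneg
  bound := h.bound
  add := h.add
  smul c _ _ h' := h.smul c h'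
  lmul a _ _ h' := h.lmul a h'
  comp a _ _ h' := h.comp a h'
  mul d := h.mul d

/-- **C1** -/
theorem cob_of_rho {E : Scale M} {z : Al M} (_hz : ∀ x, z * x = x * z) {C : ℝ}
    {ρ : En M → Al M} (hρ : IsRho E z C ρ) {k : ℕ} (f : Coch M (k + 1)) (hf : IsCocycle f) {K : ℝ} (hK : 0 ≤ K)
    (hE : ∀ a : Fin k → Al M, E.mem (K * ∏ i, ‖a i‖) (f.curryRight a)) :
    ∃ g : Coch M k, ‖g‖ ≤ C * K ∧
      ∀ a : Fin (k + 1) → Al M, Crest.OpAlg.hochschildDiff g a = f a * z :=
  gen_cob_of_rho hρ.gen f hf hK hE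


end Crest.Agent.R121
end

-- ▼ part R121/RhoFin

/-!
# Row 121, block FIN: the averaging functional of a finite corner without abelian projections
-/

set_option autoImplicit false
set_option linter.unusedSectionVars false

namespace Crest.Agent.R121

open scoped InnerProductSpace Topology
open ContinuousLinearMap Filter Finset Crest.Agent.R121.Fin

noncomputable section

universe u

variable {H : Type u} [NormedAddCommGroup H] [InnerProductSpace ℂ H] [CompleteSpace H]
variable {M : VonNeumannAlgebra H}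

lemma neBot_idx (X : Type*) : (atTop : Filter (Finset X × ℕ)).NeBot := by
  classical
  infer_instance

/-- the ultralimit: an averaging operator whose cut is exactly right modular for the unitaries of
the corner -/
theorem exists_exact {p : M.toStarSubalgebra} {ξ : H} {K : ℝ} (hc : Cor (vinc M) p ξ K)
    (hsep : ∀ x : M.toStarSubalgebra, x * p = x → (x : H →L[ℂ] H) ξ = 0 → x = 0)
    (hmu : ∀ l : ℕ, ∃ e : Fin (2 ^ l) → Fin (2 ^ l) → M.toStarSubalgebra, MU p (2 ^ l) e) :
    ∃ Λ : EndA M →ₗ[ℂ] EndA M, IsAvg Λ ∧ ∀ (T : EndA M) (y a : M.toStarSubalgebra), CU p a →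
      cut p (Λ T) (y * star a) * a = cut p (Λ T) y := by
  classical
  have hp := hc.star_p
  have hpp := hc.p_p
  let I := Finset (EndA M × M.toStarSubalgebra × {a : M.toStarSubalgebra // CU p a}) × ℕ
  have : (atTop : Filter I).NeBot := neBot_idx _
  choose Λ hΛ hΛF using fun i : I => approx hc hmu i.1
    (δ := 1 / ((i.2 : ℝ) + 1)) (by positivity)
  let 𝒰 : Ultrafilter I := Ultrafilter.of atTop
  have h𝒰 : (𝒰 : Filter I) ≤ atTop := Ultrafilter.of_le _
  obtain ⟨Λ', hΛ', hlim⟩ := exists_limit 𝒰 hΛ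
  refine ⟨Λ', hΛ', fun T y a ha => ?_⟩
  have hcutlim : ∀ x : M.toStarSubalgebra, WTends 𝒰
      (fun i => ((cut p (Λ i T) x : M.toStarSubalgebra) : H →L[ℂ] H))
      ((cut p (Λ' T) x : M.toStarSubalgebra) : H →L[ℂ] H) := fun x =>
    (hlim T (x * p)).mul_right (p : H →L[ℂ] H)
  have hD : WTends 𝒰 (fun i => ((cut p (Λ i T) (y * star a) * a - cut p (Λ i T) y :
      M.toStarSubalgebra) : H →L[ℂ] H))
      ((cut p (Λ' T) (y * star a) * a - cut p (Λ' T) y : M.toStarSubalgebra) : H →L[ℂ] H) :=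
    ((hcutlim (y * star a)).mul_right (a : H →L[ℂ] H)).sub (hcutlim y)
  have hle : ∀ n : ℕ, ‖((cut p (Λ' T) (y * star a) * a - cut p (Λ' T) y :
      M.toStarSubalgebra) : H →L[ℂ] H) ξ‖ ≤ 1 / ((n : ℝ) + 1) := by
    intro n
    refine WTends.norm_apply_le hD ξ (by positivity) ?_
    have h1 : ∀ᶠ i : I in atTop, ((({(T, y, ⟨a, ha⟩)} : Finset _), n) : I) ≤ i :=
      eventually_ge_atTop _
    filter_upwards [h𝒰 h1] with i hi
    have h2 := hΛF i (T, y, ⟨a, ha⟩) (hi.1 (mem_singleton_self _))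
    refine h2.trans ?_
    have h3 : (n : ℝ) ≤ i.2 := by exact_mod_cast hi.2
    exact one_div_le_one_div_of_le (by positivity) (by linarith)
  have hzero : ((cut p (Λ' T) (y * star a) * a - cut p (Λ' T) y :
      M.toStarSubalgebra) : H →L[ℂ] H) ξ = 0 := by
    rw [← norm_le_zero_iff]
    exact ge_of_tendsto' tendsto_one_div_add_atTop_nhds_zero_nat hle
  refine sub_eq_zero.1 (hsep _ ?_ hzero)
  rw [sub_mul, mul_assoc, ha.right, cut_p hpp]

theorem cavg_of {p : M.toStarSubalgebra} {ξ : H} {K : ℝ} (hc : Cor (vinc M) p ξ K)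
    (hsep : ∀ x : M.toStarSubalgebra, x * p = x → (x : H →L[ℂ] H) ξ = 0 → x = 0)
    (hmu : ∀ l : ℕ, ∃ e : Fin (2 ^ l) → Fin (2 ^ l) → M.toStarSubalgebra, MU p (2 ^ l) e) :
    ∃ S : En M → Al M → Al M, IsCAvg p S := by
  have hp := hc.star_p
  have hpp := hc.p_p
  obtain ⟨Λ, hΛ, hex⟩ := exists_exact hc hsep hmu
  have hu : ∀ (T : EndA M) (y a : M.toStarSubalgebra), CU p a →
      cut p (Λ T) (y * a) - cut p (Λ T) y * a = 0 := by
    intro T y a ha
    have h1 := hex T y (star a) (ha.star' hp)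
    rw [star_star] at h1
    have h2 : cut p (Λ T) (y * a) * star a * a = cut p (Λ T) y * a := by rw [h1]
    rw [mul_assoc, ha.st_mul, cut_p hpp] at h2
    rw [h2, sub_self]
  have hmod : ∀ (T : EndA M) (y a : M.toStarSubalgebra), p * a = a → a * p = a →
      cut p (Λ T) (y * a) = cut p (Λ T) y * a := by
    intro T y a hl hr
    let f : M.toStarSubalgebra →ₗ[ℂ] M.toStarSubalgebra :=
      { toFun := fun a => cut p (Λ T) (y * a) - cut p (Λ T) y * a
        map_add' := fun a b => by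
          rw [mul_add, map_add, mul_add]; abel
        map_smul' := fun c a => by
          rw [mul_smul_comm, map_smul, mul_smul_comm, RingHom.id_apply, smul_sub] }
    exact sub_eq_zero.1 (corner_span hp hpp f (fun v hv => hu T y v hv) hl hr)
  refine ⟨fun T y => cut p (Λ T) y, ?_, ?_, ?_, ?_, ?_, ?_, ?_, ?_, ?_, ?_⟩
  · intro T T' y _
    rw [map_add, cut_add]; rfl
  · intro c T y _
    rw [map_smul, cut_smul]; rfl
  · intro T y y' _ _
    rw [map_add]
  · intro T c y _
    rw [map_smul]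
  · intro T y _
    exact (cut p (Λ T)).le_of_opNorm_le ((norm_cut_le hp hpp _).trans (hΛ.norm T)) y
  · intro T y _
    exact cut_p hpp _ _
  · intro a T y _
    rw [hΛ.left]
    simp [mul_assoc]
  · intro b T y _
    rw [hΛ.right]
    simp [mul_assoc]
  · intro d y hy
    rw [hΛ.unit, cut_apply, Lm_apply, hy, mul_assoc, hy]
  · intro T y a _ hl hr
    exact hmod T y a hl hr

/-- **the finite corner** -/
theorem rho_fin {f : H →L[ℂ] H} (hfM : f ∈ M) (hf : IsStarProjection f) {ξ : H} {C : ℝ}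
    (htr : CTr M f ξ C)
    (hnab : ∀ e ∈ M, IsStarProjection e → f * e = e →
      (∀ x ∈ M, ∀ y ∈ M, (e * x * e) * (e * y * e) = (e * y * e) * (e * x * e)) → e = 0) :
    ∃ ρ : En M → Al M, IsRho (bdS M) ⟨R124.csupp M f, R124.csupp_mem M f hfM⟩ 1 ρ := by
  obtain ⟨hC, hfξ, htr1, htr2⟩ := htr
  set p : M.toStarSubalgebra := ⟨f, hfM⟩ with hpdef
  have hpP : IsStarProjection p :=
    ⟨Subtype.ext hf.isIdempotentElem, Subtype.ext hf.isSelfAdjoint⟩
  have hc : Cor (vinc M) p ξ C := by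
    refine ⟨hpP.isSelfAdjoint, hpP.isIdempotentElem, hfξ, hC, fun x h1 h2 => ?_⟩
    have h3 : f * star (x : H →L[ℂ] H) = star (x : H →L[ℂ] H) := by
      have := congrArg (fun z : M.toStarSubalgebra => (star z : H →L[ℂ] H)) h2
      have h4 : star (f : H →L[ℂ] H) = f := hf.isSelfAdjoint
      simpa [star_mul, h4, hpdef] using this
    have h3' : star (x : H →L[ℂ] H) * f = star (x : H →L[ℂ] H) := by
      have := congrArg (fun z : M.toStarSubalgebra => (star z : H →L[ℂ] H)) h1
      have h4 : star (f : H →L[ℂ] H) = f := hf.isSelfAdjoint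
      simpa [star_mul, h4, hpdef] using this
    have h5 := htr1 (star (x : H →L[ℂ] H)) (star_mem x.2) h3 h3'
    rw [star_star] at h5
    exact h5
  have hsep : ∀ x : M.toStarSubalgebra, x * p = x → (x : H →L[ℂ] H) ξ = 0 → x = 0 :=
    fun x h1 h2 => Subtype.ext (htr2 x x.2 (congrArg Subtype.val h1) h2)
  have hmu : ∀ l : ℕ, ∃ e : Fin (2 ^ l) → Fin (2 ^ l) → M.toStarSubalgebra, MU p (2 ^ l) e := by
    intro l
    obtain ⟨E, hEM, _, _, hE1, hE2, hE3⟩ := corner_units M hf hfM hnab l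
    refine ⟨fun i j => ⟨E i j, hEM i j⟩, ?_, fun i j => Subtype.ext (hE2 i j), Subtype.ext ?_⟩
    · intro i j k m
      refine Subtype.ext ?_
      have := hE1 i j k m
      by_cases hjk : j = k
      · rw [if_pos hjk] at this ⊢
        exact this
      · rw [if_neg hjk] at this ⊢
        exact this
    · refine (map_sum (M.toStarSubalgebra.subtype) _ _).trans ?_
      exact hE3
  obtain ⟨S, hS⟩ := cavg_of hc hsep hmu
  exact rho_of_cavg hpP isCS_csuppA hS

end

end Crest.Agent.R121
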