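import Crest.Agent.R121.Defs

-- ▼ part R121/PIAvg
section

/-!
Row 121, block PI: averages over signed shifts, matrix bounds.
-/

set_option autoImplicit false
set_option linter.unusedSectionVars false

open scoped InnerProductSpace

namespace Crest.Agent.R121.PI

section signs

variable {ι : Type} [Fintype ι] [DecidableEq ι]

theorem sum_signs (i j : ι) : ∑ ε : ι → ℤˣ, (((ε i : ℤˣ) : ℤ) * ((ε j : ℤˣ) : ℤ))
    = if i = j then (Fintype.card (ι → ℤˣ) : ℤ) else 0 := by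
  by_cases h : i = j
  · subst h
    rw [if_pos rfl]
    have h1 : ∀ ε : ι → ℤˣ, (((ε i : ℤˣ) : ℤ) * ((ε i : ℤˣ) : ℤ)) = 1 := by
      intro ε
      rcases Int.units_eq_one_or (ε i) with h | h <;> rw [h] <;> simp
    simp only [h1, Finset.sum_const, Finset.card_univ, nsmul_eq_mul, mul_one]
  · rw [if_neg h]
    have h1 : ∑ ε : ι → ℤˣ, (((ε i : ℤˣ) : ℤ) * ((ε j : ℤˣ) : ℤ))
        = ∑ ε : ι → ℤˣ, -((((ε i : ℤˣ) : ℤ) * ((ε j : ℤˣ) : ℤ))) := by
      refine Fintype.sum_equiv (Equiv.mulLeft (Pi.mulSingle i (-1 : ℤˣ))) _ _ fun ε => ?_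
      have h2 : j ≠ i := fun h' => h h'.symm
      simp [Pi.mulSingle_eq_of_ne h2]
    rw [Finset.sum_neg_distrib] at h1
    omega

theorem sum_signs_smul {E : Type*} [AddCommGroup E] (g : ι → ι → E) :
    ∑ ε : ι → ℤˣ, ∑ i, ∑ j, ((((ε i : ℤˣ) : ℤ) * ((ε j : ℤˣ) : ℤ)) • g i j)
      = (Fintype.card (ι → ℤˣ) : ℤ) • ∑ i, g i i := by
  rw [Finset.sum_comm]
  rw [Finset.smul_sum]
  refine Finset.sum_congr rfl fun i _ => ?_
  rw [Finset.sum_comm]
  simp only [← Finset.sum_smul, sum_signs]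
  rw [Finset.sum_eq_single i]
  · rw [if_pos rfl]
  · intro j _ hj
    rw [if_neg (Ne.symm hj), zero_smul]
  · intro h
    exact absurd (Finset.mem_univ i) h

end signs

section normed

variable {ι : Type} [Fintype ι] [DecidableEq ι]
variable {A : Type*} [NormedRing A] [NormedAlgebra ℂ A]

theorem norm_avg_le (T : A →L[ℂ] A) (w v : ι → A)
    (hw : ∀ ε : ι → ℤˣ, ‖∑ i, ((ε i : ℤˣ) : ℤ) • w i‖ ≤ 1)
    (hv : ∀ ε : ι → ℤˣ, ‖∑ i, ((ε i : ℤˣ) : ℤ) • v i‖ ≤ 1) (x : A) :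
    ‖∑ i, T (x * w i) * v i‖ ≤ ‖T‖ * ‖x‖ := by
  have h1 : (Fintype.card (ι → ℤˣ) : ℤ) • ∑ i, T (x * w i) * v i
      = ∑ ε : ι → ℤˣ, T (x * ∑ i, ((ε i : ℤˣ) : ℤ) • w i) * ∑ j, ((ε j : ℤˣ) : ℤ) • v j := by
    rw [← sum_signs_smul (fun i j => T (x * w i) * v j)]
    refine Finset.sum_congr rfl fun ε _ => ?_
    simp only [Finset.mul_sum, map_sum, Finset.sum_mul, mul_smul_comm, map_zsmul, smul_mul_assoc,
      mul_smul]
    rw [Finset.sum_comm]
    refine Finset.sum_congr rfl fun i _ => ?_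
    rw [Finset.smul_sum]
    refine Finset.sum_congr rfl fun j _ => ?_
    rw [smul_comm]
  have hc : (0 : ℝ) < Fintype.card (ι → ℤˣ) := by exact_mod_cast Fintype.card_pos
  have h2 : ‖(Fintype.card (ι → ℤˣ) : ℤ) • ∑ i, T (x * w i) * v i‖
      = (Fintype.card (ι → ℤˣ) : ℝ) * ‖∑ i, T (x * w i) * v i‖ := by
    rw [← Int.cast_smul_eq_zsmul ℂ, norm_smul]
    simp
  have h3 : ‖∑ ε : ι → ℤˣ, T (x * ∑ i, ((ε i : ℤˣ) : ℤ) • w i) * ∑ j, ((ε j : ℤˣ) : ℤ) • v j‖
      ≤ (Fintype.card (ι → ℤˣ) : ℝ) * (‖T‖ * ‖x‖) := by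
    refine (norm_sum_le _ _).trans ?_
    have h4 : ∀ ε ∈ (Finset.univ : Finset (ι → ℤˣ)),
        ‖T (x * ∑ i, ((ε i : ℤˣ) : ℤ) • w i) * ∑ j, ((ε j : ℤˣ) : ℤ) • v j‖ ≤ ‖T‖ * ‖x‖ := by
      intro ε _
      calc ‖T (x * ∑ i, ((ε i : ℤˣ) : ℤ) • w i) * ∑ j, ((ε j : ℤˣ) : ℤ) • v j‖
          ≤ ‖T (x * ∑ i, ((ε i : ℤˣ) : ℤ) • w i)‖ * ‖∑ j, ((ε j : ℤˣ) : ℤ) • v j‖ :=
            norm_mul_le _ _
        _ ≤ (‖T‖ * (‖x‖ * 1)) * 1 := by
            gcongr
            · refine (T.le_opNorm _).trans ?_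
              gcongr
              refine (norm_mul_le _ _).trans ?_
              gcongr
              exact hw ε
            · exact hv ε
        _ = ‖T‖ * ‖x‖ := by ring
    refine (Finset.sum_le_sum h4).trans ?_
    rw [Finset.sum_const, nsmul_eq_mul, Finset.card_univ]
  rw [← h1, h2] at h3
  exact le_of_mul_le_mul_left h3 hc

variable [StarRing A] [CStarRing A]

theorem norm_signed_le (v : ι → A) (hv : ∀ i j, i ≠ j → star (v i) * v j = 0)
    (hq : ‖∑ i, star (v i) * v i‖ ≤ 1) (ε : ι → ℤˣ) :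
    ‖∑ i, ((ε i : ℤˣ) : ℤ) • v i‖ ≤ 1 := by
  have h1 : star (∑ i, ((ε i : ℤˣ) : ℤ) • v i) * (∑ i, ((ε i : ℤˣ) : ℤ) • v i)
      = ∑ i, star (v i) * v i := by
    rw [star_sum, Finset.sum_mul_sum]
    refine Finset.sum_congr rfl fun i _ => ?_
    rw [Finset.sum_eq_single i]
    · rw [star_zsmul, smul_mul_assoc, mul_smul_comm, smul_smul]
      rcases Int.units_eq_one_or (ε i) with h | h <;> rw [h] <;> simp
    · intro j _ hj
      rw [star_zsmul, smul_mul_assoc, mul_smul_comm, hv i j (Ne.symm hj)]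
      simp
    · intro h
      exact absurd (Finset.mem_univ i) h
  have h2 := CStarRing.norm_star_mul_self (x := ∑ i, ((ε i : ℤˣ) : ℤ) • v i)
  rw [h1] at h2
  nlinarith [norm_nonneg (∑ i, ((ε i : ℤˣ) : ℤ) • v i)]

theorem norm_signed_star_le (v : ι → A) (hv : ∀ i j, i ≠ j → star (v i) * v j = 0)
    (hq : ‖∑ i, star (v i) * v i‖ ≤ 1) (ε : ι → ℤˣ) :
    ‖∑ i, ((ε i : ℤˣ) : ℤ) • star (v i)‖ ≤ 1 := by
  have : ∑ i, ((ε i : ℤˣ) : ℤ) • star (v i) = star (∑ i, ((ε i : ℤˣ) : ℤ) • v i) := by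
    rw [star_sum]
    simp only [star_zsmul]
  rw [this, norm_star]
  exact norm_signed_le v hv hq ε

end normed

section fam

variable {H : Type*} [NormedAddCommGroup H] [InnerProductSpace ℂ H] [CompleteSpace H]
variable {M : VonNeumannAlgebra H}

/-- isometries with orthogonal ranges (relative to the central projection `z`) -/
structure Fam (z : Al M) {ι : Type} (s : ι → Al M) : Prop where
  same : ∀ i, star (s i) * s i = z
  diff : ∀ i j, i ≠ j → star (s i) * s j = 0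

theorem coe_mul_apply (x y : Al M) (ξ : H) :
    ((x * y : Al M) : H →L[ℂ] H) ξ = (x : H →L[ℂ] H) ((y : H →L[ℂ] H) ξ) := rfl

theorem coe_sum_apply {κ : Type*} (S : Finset κ) (x : κ → Al M) (ξ : H) :
    ((∑ i ∈ S, x i : Al M) : H →L[ℂ] H) ξ = ∑ i ∈ S, (x i : H →L[ℂ] H) ξ := by
  have : ((∑ i ∈ S, x i : Al M) : H →L[ℂ] H) = ∑ i ∈ S, (x i : H →L[ℂ] H) := by
    push_cast
    rfl
  rw [this, sum_apply]

theorem inner_star_left (x : Al M) (ξ η : H) :
    ⟪((star x : Al M) : H →L[ℂ] H) ξ, η⟫_ℂ = ⟪ξ, (x : H →L[ℂ] H) η⟫_ℂ :=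
  ContinuousLinearMap.adjoint_inner_left _ _ _

theorem norm_apply_le (x : Al M) (ξ : H) : ‖(x : H →L[ℂ] H) ξ‖ ≤ ‖x‖ * ‖ξ‖ :=
  (x : H →L[ℂ] H).le_opNorm ξ

theorem norm_proj_le {p : Al M} (h : IsStarProjection p) : ‖p‖ ≤ 1 := by
  have h1 := CStarRing.norm_star_mul_self (x := p)
  rw [h.isSelfAdjoint.star_eq, h.isIdempotentElem.eq] at h1
  by_contra hcon
  push Not at hcon
  nlinarith

variable {z : Al M} {ι : Type} [Fintype ι] [DecidableEq ι] {s : ι → Al M}

theorem Fam.mul_z (hz : IsCP M z) (hs : Fam z s) (i : ι) : s i * z = s i := by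
  have h1 : star (s i * z - s i) * (s i * z - s i) = 0 := by
    have h2 := hz.proj.isIdempotentElem.eq
    have h3 := hz.proj.isSelfAdjoint.star_eq
    rw [star_sub, star_mul, h3, sub_mul, mul_sub, mul_sub]
    have h4 : z * star (s i) * (s i * z) = z := by
      rw [mul_assoc, ← mul_assoc (star (s i)), hs.same, h2, h2]
    have h5 : z * star (s i) * s i = z := by
      rw [mul_assoc, hs.same, h2]
    have h6 : star (s i) * (s i * z) = z := by
      rw [← mul_assoc, hs.same, h2]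
    rw [h4, h5, h6, hs.same]
    simp
  have h2 := CStarRing.norm_star_mul_self (x := s i * z - s i)
  rw [h1, norm_zero] at h2
  have h3 : ‖s i * z - s i‖ = 0 := by nlinarith [norm_nonneg (s i * z - s i)]
  exact sub_eq_zero.mp (norm_eq_zero.mp h3)

theorem Fam.z_mul (hz : IsCP M z) (hs : Fam z s) (i : ι) : z * s i = s i := by
  rw [hz.comm, hs.mul_z hz]

theorem Fam.star_mul_z (hz : IsCP M z) (hs : Fam z s) (i : ι) : star (s i) * z = star (s i) := by
  have := congrArg star (hs.z_mul hz i)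
  rwa [star_mul, hz.proj.isSelfAdjoint.star_eq] at this

theorem Fam.z_mul_star (hz : IsCP M z) (hs : Fam z s) (i : ι) : z * star (s i) = star (s i) := by
  rw [hz.comm, hs.star_mul_z hz]

theorem Fam.star_mul (hs : Fam z s) (i j : ι) : star (s i) * s j = if i = j then z else 0 := by
  by_cases h : i = j
  · subst h
    rw [if_pos rfl, hs.same]
  · rw [if_neg h, hs.diff i j h]

theorem Fam.proj (hz : IsCP M z) (hs : Fam z s) :
    IsStarProjection (∑ i, s i * star (s i)) := by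
  constructor
  · change (∑ i, s i * star (s i)) * (∑ i, s i * star (s i)) = ∑ i, s i * star (s i)
    rw [Finset.sum_mul_sum]
    refine Finset.sum_congr rfl fun i _ => ?_
    rw [Finset.sum_eq_single i]
    · rw [mul_assoc, ← mul_assoc (star (s i)), hs.same, hs.z_mul_star hz]
    · intro j _ hj
      rw [mul_assoc, ← mul_assoc (star (s i)), hs.diff i j (Ne.symm hj)]
      simp
    · intro h
      exact absurd (Finset.mem_univ i) h
  · change star (∑ i, s i * star (s i)) = ∑ i, s i * star (s i)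
    rw [star_sum]
    refine Finset.sum_congr rfl fun i _ => ?_
    rw [StarMul.star_mul, star_star]

theorem Fam.bessel (hz : IsCP M z) (hs : Fam z s) (ζ : H) :
    ∑ i, ‖((star (s i) : Al M) : H →L[ℂ] H) ζ‖ ^ 2 ≤ ‖ζ‖ ^ 2 := by
  have h1 : ∀ i, ((‖((star (s i) : Al M) : H →L[ℂ] H) ζ‖ ^ 2 : ℝ) : ℂ)
      = ⟪ζ, ((s i * star (s i) : Al M) : H →L[ℂ] H) ζ⟫_ℂ := by
    intro i
    rw [coe_mul_apply, ← inner_star_left, inner_self_eq_norm_sq_to_K]
    simp
  have h2 : ((∑ i, ‖((star (s i) : Al M) : H →L[ℂ] H) ζ‖ ^ 2 : ℝ) : ℂ)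
      = ⟪ζ, ((∑ i, s i * star (s i) : Al M) : H →L[ℂ] H) ζ⟫_ℂ := by
    rw [coe_sum_apply, inner_sum, Complex.ofReal_sum]
    exact Finset.sum_congr rfl fun i _ => h1 i
  have h3 : ‖⟪ζ, ((∑ i, s i * star (s i) : Al M) : H →L[ℂ] H) ζ⟫_ℂ‖ ≤ ‖ζ‖ ^ 2 := by
    refine (norm_inner_le_norm _ _).trans ?_
    have h4 := norm_apply_le (∑ i, s i * star (s i)) ζ
    have h5 := norm_proj_le (hs.proj hz)
    calc ‖ζ‖ * ‖((∑ i, s i * star (s i) : Al M) : H →L[ℂ] H) ζ‖
        ≤ ‖ζ‖ * (1 * ‖ζ‖) := by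
          gcongr
          refine h4.trans ?_
          gcongr
      _ = ‖ζ‖ ^ 2 := by ring
  rw [← h2] at h3
  rw [Complex.norm_real, Real.norm_of_nonneg (by positivity)] at h3
  exact h3

theorem Fam.comb (hz : IsCP M z) (hs : Fam z s) (ξ : ι → H) :
    ‖∑ i, (s i : H →L[ℂ] H) (ξ i)‖ ^ 2 ≤ ∑ i, ‖ξ i‖ ^ 2 := by
  have h1 : (((‖∑ i, (s i : H →L[ℂ] H) (ξ i)‖ ^ 2 : ℝ)) : ℂ)
      = ∑ i, ⟪ξ i, (z : H →L[ℂ] H) (ξ i)⟫_ℂ := by
    have : (((‖∑ i, (s i : H →L[ℂ] H) (ξ i)‖ ^ 2 : ℝ)) : ℂ)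
        = ⟪∑ i, (s i : H →L[ℂ] H) (ξ i), ∑ i, (s i : H →L[ℂ] H) (ξ i)⟫_ℂ := by
      rw [inner_self_eq_norm_sq_to_K]
      simp
    rw [this, sum_inner]
    refine Finset.sum_congr rfl fun i _ => ?_
    rw [inner_sum, Finset.sum_eq_single i]
    · have h2 : ⟪(s i : H →L[ℂ] H) (ξ i), (s i : H →L[ℂ] H) (ξ i)⟫_ℂ
          = ⟪ξ i, ((star (s i) * s i : Al M) : H →L[ℂ] H) (ξ i)⟫_ℂ := by
        rw [coe_mul_apply]
        have := inner_star_left (star (s i)) (ξ i) ((s i : H →L[ℂ] H) (ξ i))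
        rw [star_star] at this
        exact this
      rw [h2, hs.same]
    · intro j _ hj
      have h2 : ⟪(s i : H →L[ℂ] H) (ξ i), (s j : H →L[ℂ] H) (ξ j)⟫_ℂ
          = ⟪ξ i, ((star (s i) * s j : Al M) : H →L[ℂ] H) (ξ j)⟫_ℂ := by
        rw [coe_mul_apply]
        have := inner_star_left (star (s i)) (ξ i) ((s j : H →L[ℂ] H) (ξ j))
        rw [star_star] at this
        exact this
      rw [h2, hs.diff i j (Ne.symm hj)]
      simp
    · intro h
      exact absurd (Finset.mem_univ i) h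
  have h2 : ‖(((‖∑ i, (s i : H →L[ℂ] H) (ξ i)‖ ^ 2 : ℝ)) : ℂ)‖ ≤ ∑ i, ‖ξ i‖ ^ 2 := by
    rw [h1]
    refine (norm_sum_le _ _).trans (Finset.sum_le_sum fun i _ => ?_)
    refine (norm_inner_le_norm _ _).trans ?_
    have h4 := norm_apply_le z (ξ i)
    have h5 := norm_proj_le hz.proj
    calc ‖ξ i‖ * ‖(z : H →L[ℂ] H) (ξ i)‖ ≤ ‖ξ i‖ * (1 * ‖ξ i‖) := by
          gcongr
          refine h4.trans ?_
          gcongr
      _ = ‖ξ i‖ ^ 2 := by ring
  rwa [Complex.norm_real, Real.norm_of_nonneg (by positivity)] at h2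

theorem Fam.comp_inj {κ : Type} (hs : Fam z s) {e : κ → ι} (he : Function.Injective e) :
    Fam z (fun i => s (e i)) :=
  ⟨fun _ => hs.same _, fun _ _ hij => hs.diff _ _ (fun h => hij (he h))⟩

/-- the norm of the assembled matrix -/
theorem Fam.norm_assemble (hz : IsCP M z) {κ : Type} [Fintype κ] [DecidableEq κ]
    {t : κ → Al M} (ht : Fam z t) (hs : Fam z s) (X : κ → ι → Al M) {c : ℝ} (hc : 0 ≤ c)
    (hX : MB (fun p q => (X p q : H →L[ℂ] H)) c) :
    ‖∑ p, ∑ q, t p * X p q * star (s q)‖ ≤ c := by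
  have : ‖((∑ p, ∑ q, t p * X p q * star (s q) : Al M) : H →L[ℂ] H)‖ ≤ c := by
    refine ContinuousLinearMap.opNorm_le_bound _ hc fun ξ => ?_
    have h1 : ((∑ p, ∑ q, t p * X p q * star (s q) : Al M) : H →L[ℂ] H) ξ
        = ∑ p, (t p : H →L[ℂ] H)
          (∑ q, (X p q : H →L[ℂ] H) (((star (s q) : Al M) : H →L[ℂ] H) ξ)) := by
      rw [coe_sum_apply]
      refine Finset.sum_congr rfl fun p _ => ?_
      rw [coe_sum_apply, map_sum]
      refine Finset.sum_congr rfl fun q _ => ?_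
      rw [coe_mul_apply, coe_mul_apply]
    rw [h1]
    have h2 := ht.comb hz
      (fun p => ∑ q, (X p q : H →L[ℂ] H) (((star (s q) : Al M) : H →L[ℂ] H) ξ))
    have h3 := hX (fun q => ((star (s q) : Al M) : H →L[ℂ] H) ξ)
    have h4 := hs.bessel hz ξ
    refine le_of_sq_le_sq (h2.trans (h3.trans ?_)) (by positivity)
    calc c ^ 2 * ∑ q, ‖((star (s q) : Al M) : H →L[ℂ] H) ξ‖ ^ 2 ≤ c ^ 2 * ‖ξ‖ ^ 2 := by gcongr
      _ = (c * ‖ξ‖) ^ 2 := by ring
  exact this

end fam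

end Crest.Agent.R121.PI
end

-- ▼ part R121/PICol

/-!
Row 121, block PI: the column bound and the bound for last-variable matrix amplifications.
-/

set_option autoImplicit false
set_option linter.unusedSectionVars false

open scoped InnerProductSpace

namespace Crest.Agent.R121.PI

variable {H : Type*} [NormedAddCommGroup H] [InnerProductSpace ℂ H] [CompleteSpace H]
variable {M : VonNeumannAlgebra H} {z : Al M}

theorem norm_avg_sq_le {μ : Type} [Fintype μ] [Nonempty μ] (w : μ → H) :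
    ‖((Fintype.card μ : ℂ))⁻¹ • ∑ m, w m‖ ^ 2 ≤ ((Fintype.card μ : ℝ))⁻¹ * ∑ m, ‖w m‖ ^ 2 := by
  have hc : (0 : ℝ) < Fintype.card μ := by exact_mod_cast Fintype.card_pos
  rw [norm_smul, norm_inv, Complex.norm_natCast, mul_pow]
  have h1 : ‖∑ m, w m‖ ^ 2 ≤ (Fintype.card μ : ℝ) * ∑ m, ‖w m‖ ^ 2 := by
    have h2 : ‖∑ m, w m‖ ≤ ∑ m, ‖w m‖ := norm_sum_le _ _
    have h3 := sq_sum_le_card_mul_sum_sq (s := (Finset.univ : Finset μ)) (f := fun m => ‖w m‖)
    rw [Finset.card_univ] at h3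
    refine le_trans ?_ h3
    gcongr
  calc ((Fintype.card μ : ℝ)⁻¹) ^ 2 * ‖∑ m, w m‖ ^ 2
      ≤ ((Fintype.card μ : ℝ)⁻¹) ^ 2 * ((Fintype.card μ : ℝ) * ∑ m, ‖w m‖ ^ 2) := by gcongr
    _ = ((Fintype.card μ : ℝ))⁻¹ * ∑ m, ‖w m‖ ^ 2 := by
        field_simp

variable {h : ℕ} [NeZero h] {s : Fin h → Al M}

/-- signed shift -/
noncomputable def uu (s : Fin h → Al M) (b : Fin h) (ε : Fin h → ℤˣ) : Al M :=
  ∑ i, ((ε i : ℤˣ) : ℤ) • (s (i + b) * star (s i))

theorem norm_uu_le (hz : IsCP M z) (hs : Fam z s) (b : Fin h) (ε : Fin h → ℤˣ) :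
    ‖uu s b ε‖ ≤ 1 := by
  have h0 : ∀ i j, star (s (i + b) * star (s i)) * (s (j + b) * star (s j))
      = s i * (star (s (i + b)) * s (j + b)) * star (s j) := by
    intro i j
    rw [star_mul, star_star]
    simp only [mul_assoc]
  refine norm_signed_le (fun i => s (i + b) * star (s i)) ?_ ?_ ε
  · intro i j hij
    rw [h0, hs.diff (i + b) (j + b) (fun h' => hij (add_right_cancel h'))]
    simp
  · have : ∑ i, star (s (i + b) * star (s i)) * (s (i + b) * star (s i))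
        = ∑ i, s i * star (s i) := by
      refine Finset.sum_congr rfl fun i _ => ?_
      rw [h0, hs.same, hs.mul_z hz]
    rw [this]
    exact norm_proj_le (hs.proj hz)

theorem star_mul_star_uu (hz : IsCP M z) (hs : Fam z s) (b : Fin h) (ε : Fin h → ℤˣ)
    (p : Fin h) : star (s p) * star (uu s b ε) = ((ε p : ℤˣ) : ℤ) • star (s (p + b)) := by
  rw [uu, star_sum, Finset.mul_sum, Finset.sum_eq_single p]
  · rw [star_zsmul, star_mul, star_star, mul_smul_comm, ← mul_assoc, hs.same, hs.z_mul_star hz]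
  · intro i _ hi
    rw [star_zsmul, star_mul, star_star, mul_smul_comm, ← mul_assoc, hs.diff p i (Ne.symm hi)]
    simp
  · intro h
    exact absurd (Finset.mem_univ p) h

/-- the column `y_p` -/
noncomputable def yy (s : Fin h → Al M) (T : En M) (X : Al M) (p : Fin h) : Al M :=
  ((h : ℂ))⁻¹ • ∑ j, star (s j) * T (s j * star (s p) * X)

theorem yy_eq (hz : IsCP M z) (hs : Fam z s) (T : En M) (X : Al M) (p : Fin h) :
    yy s T X p = ((Fintype.card (Fin h × (Fin h → ℤˣ)) : ℂ))⁻¹ •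
      ∑ m : Fin h × (Fin h → ℤˣ), star (s p) * (star (uu s m.1 m.2) * T (uu s m.1 m.2 * X)) := by
  have h1 : ∀ b : Fin h, ∑ ε : Fin h → ℤˣ, star (s p) * (star (uu s b ε) * T (uu s b ε * X))
      = (Fintype.card (Fin h → ℤˣ) : ℤ) • (star (s (p + b)) * T (s (p + b) * star (s p) * X)) := by
    intro b
    have h2 : ∀ ε : Fin h → ℤˣ, star (s p) * (star (uu s b ε) * T (uu s b ε * X))
        = ∑ i, ((((ε p : ℤˣ) : ℤ) * ((ε i : ℤˣ) : ℤ)) •
            (star (s (p + b)) * T (s (i + b) * star (s i) * X))) := by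
      intro ε
      rw [← mul_assoc, star_mul_star_uu hz hs, uu, Finset.sum_mul, map_sum, Finset.mul_sum]
      refine Finset.sum_congr rfl fun i _ => ?_
      rw [smul_mul_assoc, smul_mul_assoc, map_zsmul, mul_smul_comm, smul_smul]
    simp only [h2]
    rw [Finset.sum_comm]
    simp only [← Finset.sum_smul, sum_signs]
    rw [Finset.sum_eq_single p]
    · rw [if_pos rfl]
    · intro i _ hi
      rw [if_neg (Ne.symm hi), zero_smul]
    · intro h
      exact absurd (Finset.mem_univ p) h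
  rw [Fintype.sum_prod_type]
  simp only [h1]
  rw [← Finset.smul_sum, Fintype.sum_equiv (Equiv.addLeft p)
    (fun b => star (s (p + b)) * T (s (p + b) * star (s p) * X))
    (fun j => star (s j) * T (s j * star (s p) * X)) (fun b => rfl)]
  rw [← Int.cast_smul_eq_zsmul ℂ, smul_smul, yy]
  congr 1
  rw [Fintype.card_prod, Fintype.card_fin]
  have h3 : (Fintype.card (Fin h → ℤˣ) : ℂ) ≠ 0 := by
    exact_mod_cast Fintype.card_ne_zero
  have h4 : (h : ℂ) ≠ 0 := by exact_mod_cast NeZero.ne h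
  push_cast
  field_simp

theorem col_bound (hz : IsCP M z) (hs : Fam z s) (T : En M) (X : Al M) (η : H) :
    ∑ p, ‖((yy s T X p : Al M) : H →L[ℂ] H) η‖ ^ 2 ≤ (‖T‖ * ‖X‖ * ‖η‖) ^ 2 := by
  set N : ℝ := (Fintype.card (Fin h × (Fin h → ℤˣ)) : ℝ) with hN
  have hN0 : 0 < N := by
    rw [hN]
    exact_mod_cast Fintype.card_pos
  set Z : Fin h × (Fin h → ℤˣ) → Al M :=
    fun m => star (uu s m.1 m.2) * T (uu s m.1 m.2 * X) with hZ
  have h1 : ∀ p, ‖((yy s T X p : Al M) : H →L[ℂ] H) η‖ ^ 2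
      ≤ N⁻¹ * ∑ m, ‖((star (s p) : Al M) : H →L[ℂ] H) ((Z m : H →L[ℂ] H) η)‖ ^ 2 := by
    intro p
    have h2 : ((yy s T X p : Al M) : H →L[ℂ] H) η
        = ((Fintype.card (Fin h × (Fin h → ℤˣ)) : ℂ))⁻¹ •
          ∑ m, ((star (s p) : Al M) : H →L[ℂ] H) ((Z m : H →L[ℂ] H) η) := by
      rw [yy_eq hz hs]
      have h3 : ∀ (c : ℂ) (x : Al M), ((c • x : Al M) : H →L[ℂ] H) η = c • (x : H →L[ℂ] H) η :=
        fun c x => rfl
      rw [h3, coe_sum_apply]
      rfl
    rw [h2]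
    exact norm_avg_sq_le _
  have hZn : ∀ m, ‖(Z m : H →L[ℂ] H) η‖ ^ 2 ≤ (‖T‖ * ‖X‖ * ‖η‖) ^ 2 := by
    intro m
    have h2 : ‖Z m‖ ≤ ‖T‖ * ‖X‖ := by
      have h3 := norm_uu_le hz hs m.1 m.2
      calc ‖Z m‖ ≤ ‖star (uu s m.1 m.2)‖ * ‖T (uu s m.1 m.2 * X)‖ := norm_mul_le _ _
        _ ≤ 1 * (‖T‖ * (1 * ‖X‖)) := by
            gcongr
            · rw [norm_star]
              exact h3
            · refine (T.le_opNorm _).trans ?_
              gcongr
              refine (norm_mul_le _ _).trans ?_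
              gcongr
        _ = ‖T‖ * ‖X‖ := by ring
    have h4 := norm_apply_le (Z m) η
    gcongr
    refine h4.trans ?_
    gcongr
  calc ∑ p, ‖((yy s T X p : Al M) : H →L[ℂ] H) η‖ ^ 2
      ≤ ∑ p, N⁻¹ * ∑ m, ‖((star (s p) : Al M) : H →L[ℂ] H) ((Z m : H →L[ℂ] H) η)‖ ^ 2 :=
        Finset.sum_le_sum fun p _ => h1 p
    _ = N⁻¹ * ∑ m, ∑ p, ‖((star (s p) : Al M) : H →L[ℂ] H) ((Z m : H →L[ℂ] H) η)‖ ^ 2 := by
        rw [← Finset.mul_sum, Finset.sum_comm]
    _ ≤ N⁻¹ * ∑ m : Fin h × (Fin h → ℤˣ), (‖T‖ * ‖X‖ * ‖η‖) ^ 2 := by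
        gcongr with m _
        exact (hs.bessel hz _).trans (hZn m)
    _ = (‖T‖ * ‖X‖ * ‖η‖) ^ 2 := by
        rw [Finset.sum_const, nsmul_eq_mul, Finset.card_univ, ← hN, ← mul_assoc,
          inv_mul_cancel₀ hN0.ne', one_mul]

/-- `σ x = ∑ s_i x s_i^*` -/
noncomputable def sg (s : Fin h → Al M) (x : Al M) : Al M := ∑ i, s i * x * star (s i)

theorem sg_mul_s (hz : IsCP M z) (hs : Fam z s) (x : Al M) (j : Fin h) :
    sg s x * s j = s j * x := by
  rw [sg, Finset.sum_mul, Finset.sum_eq_single j]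
  · rw [mul_assoc, hs.same, mul_assoc, ← hz.comm, ← mul_assoc, hs.mul_z hz]
  · intro i _ hi
    rw [mul_assoc, hs.diff i j hi, mul_zero]
  · intro h
    exact absurd (Finset.mem_univ j) h

theorem star_s_mul_sg (hz : IsCP M z) (hs : Fam z s) (x : Al M) (j : Fin h) :
    star (s j) * sg s x = x * star (s j) := by
  rw [sg, Finset.mul_sum, Finset.sum_eq_single j]
  · rw [← mul_assoc, ← mul_assoc, hs.same, hz.comm, mul_assoc, hs.z_mul_star hz]
  · intro i _ hi
    rw [← mul_assoc, ← mul_assoc, hs.diff j i (Ne.symm hi)]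
    simp
  · intro h
    exact absurd (Finset.mem_univ j) h

theorem sg_mul (hz : IsCP M z) (hs : Fam z s) (x y : Al M) : sg s (x * y) = sg s x * sg s y := by
  rw [sg, sg, Finset.sum_mul]
  refine Finset.sum_congr rfl fun i _ => ?_
  rw [mul_assoc (s i * x), star_s_mul_sg hz hs]
  simp only [mul_assoc]

theorem norm_sg_le (hz : IsCP M z) (hs : Fam z s) (x : Al M) : ‖sg s x‖ ≤ ‖x‖ := by
  have h1 : sg s x = ∑ p, ∑ q, s p * (if p = q then x else 0) * star (s q) := by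
    rw [sg]
    refine Finset.sum_congr rfl fun i _ => ?_
    rw [Finset.sum_eq_single i]
    · rw [if_pos rfl]
    · intro j _ hj
      rw [if_neg (Ne.symm hj)]
      simp
    · intro h
      exact absurd (Finset.mem_univ i) h
  rw [h1]
  refine hs.norm_assemble hz hs (fun p q => if p = q then x else 0) (norm_nonneg x) ?_
  intro ξ
  rw [Finset.mul_sum]
  refine Finset.sum_le_sum fun i _ => ?_
  rw [Finset.sum_eq_single i]
  · simp only [if_true]
    rw [← mul_pow]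
    gcongr
    exact norm_apply_le x (ξ i)
  · intro j _ hj
    simp [Ne.symm hj]
  · intro h
    exact absurd (Finset.mem_univ i) h

/-- `σ` as a continuous linear map -/
noncomputable def sgL (hz : IsCP M z) (hs : Fam z s) : Al M →L[ℂ] Al M :=
  LinearMap.mkContinuous
    { toFun := sg s
      map_add' := by
        intro x y
        simp only [sg, mul_add, add_mul, Finset.sum_add_distrib]
      map_smul' := by
        intro c x
        simp only [sg, mul_smul_comm, smul_mul_assoc, Finset.smul_sum, RingHom.id_apply] }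
    1 (fun x => by simpa using! norm_sg_le hz hs x)


/-- `Ψ(x) = (1/h) ∑ s_j^* T(σ x) s_j` -/
noncomputable def Psi (s : Fin h → Al M) (T : Al M → Al M) (x : Al M) : Al M :=
  ((h : ℂ))⁻¹ • ∑ j, star (s j) * T (sg s x) * s j

theorem Psi_eq (hz : IsCP M z) (hs : Fam z s) (T : En M)
    (hT : ∀ y m n, T (y * (s m * star (s n))) = T y * (s m * star (s n)))
    {n : ℕ} (e : Fin n → Fin h) (he : Function.Injective e) (X : Fin n → Fin n → Al M)
    (p q : Fin n) :
    Psi s T (X p q) = yy s T (∑ p, ∑ q, s (e p) * X p q * star (s (e q))) (e p) * s (e q) := by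
  set W : Al M := ∑ p, ∑ q, s (e p) * X p q * star (s (e q)) with hW
  have hW1 : star (s (e p)) * W * s (e q) = z * X p q * z := by
    rw [hW, Finset.mul_sum, Finset.sum_mul, Finset.sum_eq_single p]
    · rw [Finset.mul_sum, Finset.sum_mul, Finset.sum_eq_single q]
      · have : star (s (e p)) * (s (e p) * X p q * star (s (e q))) * s (e q)
            = (star (s (e p)) * s (e p)) * X p q * (star (s (e q)) * s (e q)) := by
          simp only [mul_assoc]
        rw [this, hs.same, hs.same]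
      · intro q' _ hq'
        have : star (s (e p)) * (s (e p) * X p q' * star (s (e q'))) * s (e q)
            = (star (s (e p)) * s (e p)) * X p q' * (star (s (e q')) * s (e q)) := by
          simp only [mul_assoc]
        rw [this, hs.diff (e q') (e q) (fun h' => hq' (he h')), mul_zero]
      · intro h
        exact absurd (Finset.mem_univ q) h
    · intro p' _ hp'
      rw [Finset.mul_sum, Finset.sum_mul]
      refine Finset.sum_eq_zero fun q' _ => ?_
      have : star (s (e p)) * (s (e p') * X p' q' * star (s (e q'))) * s (e q)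
          = (star (s (e p)) * s (e p')) * X p' q' * (star (s (e q')) * s (e q)) := by
        simp only [mul_assoc]
      rw [this, hs.diff (e p) (e p') (fun h' => hp' (he h').symm)]
      simp
    · intro h
      exact absurd (Finset.mem_univ p) h
  have key : ∀ j, T (sg s (X p q)) * s j
      = T (s j * star (s (e p)) * W) * s (e q) := by
    intro j
    have h1 : s j = (s j * star (s j)) * s j := by
      rw [mul_assoc, hs.same, hs.mul_z hz]
    have h2 : T (sg s (X p q)) * s j = T (s j * X p q * star (s j)) * s j := by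
      conv_lhs => rw [h1]
      rw [← mul_assoc, ← hT, ← mul_assoc, sg_mul_s hz hs]
    have h3 : s j * X p q * star (s j) = (s j * X p q * star (s (e q))) * (s (e q) * star (s j)) := by
      have : (s j * X p q * star (s (e q))) * (s (e q) * star (s j))
          = s j * X p q * (star (s (e q)) * s (e q)) * star (s j) := by
        simp only [mul_assoc]
      rw [this, hs.same, mul_assoc (s j * X p q), hs.z_mul_star hz]
    have h4 : (s (e q) * star (s j)) * s j = s (e q) := by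
      rw [mul_assoc, hs.same, hs.mul_z hz]
    have h5 : s j * X p q * star (s (e q)) = (s j * star (s (e p)) * W) * (s (e q) * star (s (e q))) := by
      have : (s j * star (s (e p)) * W) * (s (e q) * star (s (e q)))
          = s j * (star (s (e p)) * W * s (e q)) * star (s (e q)) := by
        simp only [mul_assoc]
      rw [this, hW1, ← mul_assoc, ← mul_assoc, hs.mul_z hz, mul_assoc (s j * X p q),
        hs.z_mul_star hz]
    have h6 : (s (e q) * star (s (e q))) * s (e q) = s (e q) := by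
      rw [mul_assoc, hs.same, hs.mul_z hz]
    rw [h2, h3, hT, mul_assoc, h4, h5, hT, mul_assoc, h6]
  rw [Psi, yy, smul_mul_assoc, Finset.sum_mul]
  congr 1
  refine Finset.sum_congr rfl fun j _ => ?_
  rw [mul_assoc, key]
  simp only [mul_assoc]

theorem Psi_MB (hz : IsCP M z) (hs : Fam z s) (T : En M)
    (hT : ∀ y m n, T (y * (s m * star (s n))) = T y * (s m * star (s n)))
    {n : ℕ} (e : Fin n → Fin h) (he : Function.Injective e) (X : Fin n → Fin n → Al M)
    (hX : MB (fun p q => (X p q : H →L[ℂ] H)) 1) :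
    MB (fun p q => ((Psi s T (X p q) : Al M) : H →L[ℂ] H)) ‖T‖ := by
  intro ξ
  set W : Al M := ∑ p, ∑ q, s (e p) * X p q * star (s (e q)) with hW
  have hWn : ‖W‖ ≤ 1 :=
    (hs.comp_inj he).norm_assemble hz (hs.comp_inj he) X zero_le_one hX
  set η : H := ∑ q, (s (e q) : H →L[ℂ] H) (ξ q) with hη
  have hηn : ‖η‖ ^ 2 ≤ ∑ q, ‖ξ q‖ ^ 2 := (hs.comp_inj he).comb hz ξ
  have h1 : ∀ p, ∑ q, ((Psi s T (X p q) : Al M) : H →L[ℂ] H) (ξ q)
      = ((yy s T W (e p) : Al M) : H →L[ℂ] H) η := by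
    intro p
    rw [hη, map_sum]
    refine Finset.sum_congr rfl fun q _ => ?_
    rw [Psi_eq hz hs T hT e he X p q, coe_mul_apply]
  simp only [h1]
  have h2 : ∑ p, ‖((yy s T W (e p) : Al M) : H →L[ℂ] H) η‖ ^ 2
      ≤ ∑ p, ‖((yy s T W p : Al M) : H →L[ℂ] H) η‖ ^ 2 := by
    rw [← Finset.sum_image (f := fun p => ‖((yy s T W p : Al M) : H →L[ℂ] H) η‖ ^ 2)
      (s := Finset.univ) (g := e) (fun a _ b _ hab => he hab)]
    exact Finset.sum_le_univ_sum_of_nonneg (fun p => by positivity)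
  refine h2.trans ((col_bound hz hs T W η).trans ?_)
  calc (‖T‖ * ‖W‖ * ‖η‖) ^ 2 ≤ (‖T‖ * 1 * ‖η‖) ^ 2 := by gcongr
    _ = ‖T‖ ^ 2 * ‖η‖ ^ 2 := by ring
    _ ≤ ‖T‖ ^ 2 * ∑ q, ‖ξ q‖ ^ 2 := by gcongr

end Crest.Agent.R121.PI
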