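import Crest.Agent.R121.DichA
import Crest.Prelude.Def_Hochschild

/-!
# Gluing local primitives over an orthogonal family of central projections
-/

set_option autoImplicit false

namespace Crest.Agent.R121

open Crest.Agent.R124
open scoped InnerProductSpace

variable {K : Type*} [NormedAddCommGroup K] [InnerProductSpace ℂ K] [CompleteSpace K]

lemma exists_strong_sum (M : VonNeumannAlgebra K) {S : Set (K →L[ℂ] K)} (hS : OrthSys S)
    (b : S → K →L[ℂ] K) (hbM : ∀ i, b i ∈ M)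
    (hb : ∀ i : S, (i : K →L[ℂ] K) * b i = b i) (hb' : ∀ i : S, b i * (i : K →L[ℂ] K) = b i)
    {R : ℝ} (hR : 0 ≤ R) (hbR : ∀ i, ‖b i‖ ≤ R) :
    ∃ B ∈ M, ‖B‖ ≤ R ∧ ∀ ξ, HasSum (fun i => b i ξ) (B ξ) := by
  have hmem : ∀ (ξ : K) (i : S), b i ξ ∈ LinearMap.range ((i : K →L[ℂ] K) : K →ₗ[ℂ] K) := by
    intro ξ i
    refine ⟨b i ξ, ?_⟩
    exact congrArg (fun T : K →L[ℂ] K => T ξ) (hb i)
  have hnorm : ∀ (ξ : K) (F : Finset S), ‖∑ i ∈ F, b i ξ‖ ^ 2 = ∑ i ∈ F, ‖b i ξ‖ ^ 2 := by
    intro ξ F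
    have h1 := hS.orthogonalFamily.norm_sum (fun w => ⟨b w ξ, hmem ξ w⟩) F
    simpa using! h1
  have hbound : ∀ (ξ : K) (F : Finset S), ∑ i ∈ F, ‖b i ξ‖ ^ 2 ≤ (R * ‖ξ‖) ^ 2 := by
    intro ξ F
    calc ∑ i ∈ F, ‖b i ξ‖ ^ 2 ≤ ∑ i ∈ F, R ^ 2 * ‖(i : K →L[ℂ] K) ξ‖ ^ 2 := by
          refine Finset.sum_le_sum fun i _ => ?_
          have h1 : b i ξ = b i ((i : K →L[ℂ] K) ξ) :=
            congrArg (fun T : K →L[ℂ] K => T ξ) (hb' i).symm
          rw [h1, ← mul_pow]
          gcongr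
          exact (b i).le_of_opNorm_le (hbR i) _
      _ = R ^ 2 * ∑ i ∈ F, ‖(i : K →L[ℂ] K) ξ‖ ^ 2 := by rw [Finset.mul_sum]
      _ ≤ R ^ 2 * ‖ξ‖ ^ 2 := by gcongr; exact hS.sum_norm_sq_le F ξ
      _ = _ := by ring
  have hsummable : ∀ ξ : K, Summable fun i : S => b i ξ := by
    intro ξ
    have h := (hS.orthogonalFamily.summable_iff_norm_sq_summable
      (fun w => ⟨b w ξ, hmem ξ w⟩)).2
      (summable_of_sum_le (fun w => sq_nonneg _) (c := (R * ‖ξ‖) ^ 2) (fun F => by
        simpa using! hbound ξ F))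
    exact h
  have hbd : ∀ ξ : K, ‖∑' i : S, b i ξ‖ ≤ R * ‖ξ‖ := by
    intro ξ
    refine le_of_tendsto (hsummable ξ).hasSum.norm (Filter.Eventually.of_forall fun F => ?_)
    have h3 : ‖∑ i ∈ F, b i ξ‖ ^ 2 ≤ (R * ‖ξ‖) ^ 2 := hnorm ξ F ▸ hbound ξ F
    exact le_of_sq_le_sq h3 (by positivity)
  let B0 : K →ₗ[ℂ] K :=
    { toFun := fun ξ => ∑' i : S, b i ξ
      map_add' := by
        intro ξ η
        simp only [map_add]
        exact (hsummable ξ).tsum_add (hsummable η)
      map_smul' := by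
        intro c ξ
        simp only [map_smul, RingHom.id_apply]
        exact (hsummable ξ).tsum_const_smul c }
  have hB : ∀ ξ, HasSum (fun i => b i ξ) (B0.mkContinuous R hbd ξ) := fun ξ => (hsummable ξ).hasSum
  refine ⟨B0.mkContinuous R hbd, ?_, B0.mkContinuous_norm_le hR hbd, hB⟩
  refine mem_of_commutant M _ fun T hT => ?_
  ext ξ
  have h1 := (hB ξ).mapL T
  have h2 := hB (T ξ)
  have h3 : (fun i : S => T (b i ξ)) = fun i => b i (T ξ) := by
    funext i
    exact congrArg (fun X : K →L[ℂ] K => X ξ) (commutant_comm M (hbM i) hT)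
  rw [h3] at h1
  exact h1.unique h2

open Crest.OpAlg in
lemma hochschildDiff_central_mul {A : Type*} [Ring A] {k : ℕ} (f : (Fin k → A) → A) (c : A)
    (hc : ∀ x, c * x = x * c) (a : Fin (k + 1) → A) :
    hochschildDiff (fun b => c * f b) a = c * hochschildDiff f a := by
  unfold hochschildDiff
  rw [mul_add, mul_add, Finset.mul_sum]
  congr 1
  · congr 1
    · rw [← mul_assoc, ← hc, mul_assoc]
    · refine Finset.sum_congr rfl fun j _ => ?_
      rw [mul_smul_comm]
  · rw [mul_smul_comm, mul_assoc]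

open Crest.OpAlg in
/-- **Gluing.**  If every nonzero central projection dominates a nonzero central projection `c`
such that `c • f` is the coboundary of a cochain of norm at most `R` (with `R` independent of
`c`), then `f` is a coboundary. -/
theorem sum_of_local' (M : VonNeumannAlgebra K) (n : ℕ)
    (f : ContinuousMultilinearMap ℂ (fun _ : Fin (n + 1) => M.toStarSubalgebra)
      M.toStarSubalgebra) (R : ℝ)
    (hloc : ∀ z : M.toStarSubalgebra, z ≠ 0 → star z = z → z * z = z → (∀ x, z * x = x * z) →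
      ∃ c : M.toStarSubalgebra, c ≠ 0 ∧ star c = c ∧ c * c = c ∧ (∀ x, c * x = x * c) ∧
        z * c = c ∧
        ∃ g : ContinuousMultilinearMap ℂ (fun _ : Fin n => M.toStarSubalgebra)
          M.toStarSubalgebra, ‖g‖ ≤ R ∧
          ∀ a : Fin (n + 1) → M.toStarSubalgebra, hochschildDiff g a = c * f a) :
    ∃ g : ContinuousMultilinearMap ℂ (fun _ : Fin n => M.toStarSubalgebra) M.toStarSubalgebra,
      ‖g‖ ≤ max R 0 ∧
      ∀ a : Fin (n + 1) → M.toStarSubalgebra, hochschildDiff g a = f a := by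
  classical
  set Pr : (K →L[ℂ] K) → Prop := fun c => ∃ hc : c ∈ M, IsStarProjection c ∧
    (∀ x ∈ M, c * x = x * c) ∧
    ∃ g : ContinuousMultilinearMap ℂ (fun _ : Fin n => M.toStarSubalgebra)
      M.toStarSubalgebra, ‖g‖ ≤ R ∧
      ∀ a : Fin (n + 1) → M.toStarSubalgebra,
        hochschildDiff g a = (⟨c, hc⟩ : M.toStarSubalgebra) * f a with hPr
  obtain ⟨S, -, hS1, hS2, hmax⟩ := zorn_pair Pr (fun c c' => c * c' = 0) ∅ (by simp) (by simp)
  have hSp : ∀ c ∈ S, IsStarProjection c := fun c hc => (hS1 c hc).2.1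
  have hSM : ∀ c ∈ S, c ∈ M := fun c hc => (hS1 c hc).1
  have hSc : ∀ c ∈ S, ∀ x ∈ M, c * x = x * c := fun c hc => (hS1 c hc).2.2.1
  have hS : OrthSys S := by
    refine ⟨fun q hq => ?_, fun q hq q' hq' hne => ?_, fun q hq q' hq' hne => ?_⟩
    · have h := hSp q hq
      rw [h.isSelfAdjoint.star_eq, h.isIdempotentElem.eq, h.isIdempotentElem.eq]
    · rw [(hSp q hq).isSelfAdjoint.star_eq]; exact hS2 q hq q' hq' hne
    · rw [(hSp q' hq').isSelfAdjoint.star_eq]; exact hS2 q hq q' hq' hne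
  obtain ⟨G, hG⟩ := hS.exists_sum
  obtain ⟨hGp, hGq⟩ := sum_proj hS hSp hG
  have hGM : G ∈ M := mem_of_commutant M G fun T hT =>
    sum_mul_comm hG T fun w hw => commutant_comm M (hSM w hw) hT
  have hGc : ∀ x ∈ M, x * G = G * x := fun x hx =>
    sum_mul_comm hG x fun w hw => (hSc w hw x hx).symm
  -- the sum is one
  have hG1 : G = 1 := by
    by_contra hne
    set z : M.toStarSubalgebra := ⟨1 - G, sub_mem (one_mem M) hGM⟩ with hz
    have hz0 : z ≠ 0 := by
      intro h0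
      have : (z : K →L[ℂ] K) = 0 := by rw [h0]; rfl
      rw [hz] at this
      exact hne (sub_eq_zero.1 this).symm
    obtain ⟨c, hc0, hcs, hcc, hcc', hzc, g, hgR, hg⟩ := hloc z hz0
      (Subtype.ext (by
        change star (1 - G) = 1 - G
        rw [star_sub, star_one, hGp.isSelfAdjoint.star_eq]))
      (Subtype.ext (by
        change (1 - G) * (1 - G) = 1 - G
        rw [sub_mul, one_mul, mul_sub, mul_one, hGp.isIdempotentElem.eq, sub_self, sub_zero]))
      (fun x => Subtype.ext (by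
        change (1 - G) * (x : K →L[ℂ] K) = (x : K →L[ℂ] K) * (1 - G)
        rw [sub_mul, one_mul, mul_sub, mul_one, hGc x x.2]))
    have hzc' : (1 - G) * (c : K →L[ℂ] K) = c := congrArg Subtype.val hzc
    have hGc0 : G * (c : K →L[ℂ] K) = 0 := by
      rw [sub_mul, one_mul, sub_eq_self] at hzc'
      exact hzc'
    have hcp : IsStarProjection (c : K →L[ℂ] K) :=
      ⟨congrArg Subtype.val hcc, congrArg Subtype.val hcs⟩
    have hcM : ∀ x ∈ M, (c : K →L[ℂ] K) * x = x * c := fun x hx =>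
      congrArg Subtype.val (hcc' ⟨x, hx⟩)
    have hcS : (c : K →L[ℂ] K) ∈ S := by
      refine hmax c ⟨c.2, hcp, hcM, g, hgR, hg⟩ fun w hw => ?_
      have h1 : w * (c : K →L[ℂ] K) = 0 := by
        rw [← (hGq w hw).1, mul_assoc, hGc0, mul_zero]
      exact ⟨by rw [hcM w (hSM w hw), h1], h1⟩
    have h2 := (hGq c hcS).2
    rw [hGc0] at h2
    exact hc0 (Subtype.ext h2.symm)
  subst hG1
  -- the local cochains
  choose! hm hpj hce g₀ hgR₀ hg₀ using hS1
  set R' : ℝ := max R 0 with hR'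
  have hR'0 : 0 ≤ R' := le_max_right _ _
  have hprod : ∀ a : Fin n → M.toStarSubalgebra, 0 ≤ ∏ j, ‖a j‖ :=
    fun a => Finset.prod_nonneg fun j _ => norm_nonneg _
  set b : (Fin n → M.toStarSubalgebra) → S → K →L[ℂ] K := fun a i =>
    (i : K →L[ℂ] K) * ((g₀ i a : M.toStarSubalgebra) : K →L[ℂ] K) with hbdef
  have hbM : ∀ a i, b a i ∈ M := fun a i => mul_mem (hSM i i.2) (g₀ i a).2
  have hii : ∀ i : S, (i : K →L[ℂ] K) * (i : K →L[ℂ] K) = i := fun i =>
    (hSp i i.2).isIdempotentElem.eq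
  have hb1 : ∀ a (i : S), (i : K →L[ℂ] K) * b a i = b a i := fun a i => by
    rw [hbdef]; simp only; rw [← mul_assoc, hii]
  have hb2 : ∀ a (i : S), b a i * (i : K →L[ℂ] K) = b a i := fun a i => by
    rw [← hSc i i.2 _ (hbM a i), hb1]
  have hcn : ∀ i : S, ‖(i : K →L[ℂ] K)‖ ≤ 1 := by
    intro i
    have h1 : ‖star (i : K →L[ℂ] K) * (i : K →L[ℂ] K)‖ = ‖(i : K →L[ℂ] K)‖ *
      ‖(i : K →L[ℂ] K)‖ := CStarRing.norm_star_mul_self
    rw [(hSp i i.2).isSelfAdjoint.star_eq, hii] at h1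
    by_contra hlt
    push Not at hlt
    nlinarith
  have hbR : ∀ a i, ‖b a i‖ ≤ R' * ∏ j, ‖a j‖ := by
    intro a i
    calc ‖b a i‖ ≤ ‖(i : K →L[ℂ] K)‖ * ‖((g₀ i a : M.toStarSubalgebra) : K →L[ℂ] K)‖ :=
          norm_mul_le _ _
      _ ≤ 1 * (R' * ∏ j, ‖a j‖) := by
          refine mul_le_mul (hcn i) ?_ (norm_nonneg _) zero_le_one
          refine ((g₀ i).le_opNorm a).trans ?_
          exact mul_le_mul_of_nonneg_right ((hgR₀ i i.2).trans (le_max_left _ _)) (hprod a)
      _ = _ := one_mul _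
  choose B hBM hBR hB using fun a =>
    exists_strong_sum M hS (b a) (hbM a) (hb1 a) (hb2 a) (mul_nonneg hR'0 (hprod a)) (hbR a)
  let G₁ : MultilinearMap ℂ (fun _ : Fin n => M.toStarSubalgebra) M.toStarSubalgebra :=
    { toFun := fun a => ⟨B a, hBM a⟩
      map_update_add' := by
        intro _ m i_1 x y
        refine Subtype.ext (ContinuousLinearMap.ext fun ξ => ?_)
        refine (hB _ ξ).unique ?_
        have h := (hB (Function.update m i_1 x) ξ).add (hB (Function.update m i_1 y) ξ)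
        have e : (fun i : S => b (Function.update m i_1 (x + y)) i ξ) = fun i =>
          b (Function.update m i_1 x) i ξ + b (Function.update m i_1 y) i ξ := by
          funext i
          simp only [hbdef, ContinuousMultilinearMap.map_update_add]
          exact map_add (i : K →L[ℂ] K) _ _
        rw [e]
        exact h
      map_update_smul' := by
        intro _ m i_1 c x
        refine Subtype.ext (ContinuousLinearMap.ext fun ξ => ?_)
        refine (hB _ ξ).unique ?_
        have h := (hB (Function.update m i_1 x) ξ).const_smul c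
        have e : (fun i : S => b (Function.update m i_1 (c • x)) i ξ) = fun i =>
          c • b (Function.update m i_1 x) i ξ := by
          funext i
          simp only [hbdef, ContinuousMultilinearMap.map_update_smul]
          exact map_smul (i : K →L[ℂ] K) c _
        rw [e]
        exact h }
  refine ⟨G₁.mkContinuous R' hBR, G₁.mkContinuous_norm_le hR'0 hBR,
    fun a => Subtype.ext (ContinuousLinearMap.ext fun ξ => ?_)⟩
  have hcoe : ∀ (h : (Fin n → M.toStarSubalgebra) → M.toStarSubalgebra),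
      ((hochschildDiff h a : M.toStarSubalgebra) : K →L[ℂ] K) ξ =
        ((a 0 : M.toStarSubalgebra) : K →L[ℂ] K)
          (((h (fun i => a i.succ) : M.toStarSubalgebra) : K →L[ℂ] K) ξ) +
        (∑ j : Fin n, ((-1 : ℤ) ^ (j.val + 1)) •
          ((h (mergeArgs j a) : M.toStarSubalgebra) : K →L[ℂ] K) ξ) +
        ((-1 : ℤ) ^ (n + 1)) • (((h (fun i => a i.castSucc) : M.toStarSubalgebra) : K →L[ℂ] K)
          (((a (Fin.last n) : M.toStarSubalgebra) : K →L[ℂ] K) ξ)) := by
    intro h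
    let φ : M.toStarSubalgebra →+ K :=
      { toFun := fun x => (x : K →L[ℂ] K) ξ
        map_zero' := rfl
        map_add' := fun _ _ => rfl }
    change φ (hochschildDiff h a) = _
    unfold hochschildDiff
    rw [map_add, map_add, map_sum, map_zsmul]
    simp only [map_zsmul]
    rfl
  have h1 : HasSum (fun i : S => ((a 0 : M.toStarSubalgebra) : K →L[ℂ] K)
        (b (fun i => a i.succ) i ξ) +
        (∑ j : Fin n, ((-1 : ℤ) ^ (j.val + 1)) • b (mergeArgs j a) i ξ) +
        ((-1 : ℤ) ^ (n + 1)) • (b (fun i => a i.castSucc) i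
          (((a (Fin.last n) : M.toStarSubalgebra) : K →L[ℂ] K) ξ)))
      (((hochschildDiff (G₁.mkContinuous R' hBR) a : M.toStarSubalgebra) : K →L[ℂ] K) ξ) := by
    rw [hcoe]
    refine ((((hB _ ξ).mapL _).add (hasSum_sum fun j _ => ?_)).add ?_)
    · exact (hB (mergeArgs j a) ξ).const_smul _
    · exact (hB _ _).const_smul _
  have h2 := hG (((f a : M.toStarSubalgebra) : K →L[ℂ] K) ξ)
  refine h1.unique ?_
  have h3 : (fun i : S => ((a 0 : M.toStarSubalgebra) : K →L[ℂ] K)
        (b (fun i => a i.succ) i ξ) +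
        (∑ j : Fin n, ((-1 : ℤ) ^ (j.val + 1)) • b (mergeArgs j a) i ξ) +
        ((-1 : ℤ) ^ (n + 1)) • (b (fun i => a i.castSucc) i
          (((a (Fin.last n) : M.toStarSubalgebra) : K →L[ℂ] K) ξ))) =
      fun i : S => (i : K →L[ℂ] K) (((f a : M.toStarSubalgebra) : K →L[ℂ] K) ξ) := by
    funext i
    have e1 := hcoe (fun a => (⟨i, hSM i i.2⟩ : M.toStarSubalgebra) * g₀ i a)
    rw [hochschildDiff_central_mul _ _ (fun x => Subtype.ext (hSc i i.2 x x.2)), hg₀ i i.2] at e1
    refine (Eq.trans ?_ e1.symm).trans ?_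
    · rfl
    · change (i : K →L[ℂ] K) ((i : K →L[ℂ] K) (((f a : M.toStarSubalgebra) : K →L[ℂ] K) ξ)) = _
      exact congrArg (fun T : K →L[ℂ] K => T (((f a : M.toStarSubalgebra) : K →L[ℂ] K) ξ)) (hii i)
  rw [h3]
  exact h2


end Crest.Agent.R121
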